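import Vale.Agent.P167.H704.Q.Rs

/-!
# P167, general `q`: crossings which end at a bank

`C` is a set of squares of the tube `T`. If all the corners of the colour `e` which are shared by `C`
and `T \ C` are joined outside of `C` by the colour `e` (the bank of a strand), then the configuration
in `C`, completed by the colour `e` in `T \ C`, dominates the configuration in `T` with the other
colour outside.
-/

namespace Vale.Agent.P167.H704.Q

open Finset Vale.Agent.P145.FB Vale.Agent.P153 Vale.Agent.P153.Topo Vale.Agent.P167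
  Vale.Agent.P167.H632 Vale.Agent.P167.H871 Vale.Agent.P167.H704 Vale.Agent.P167.FK
  Vale.Agent.P167.FKA
open Vale.Agent.P167.H259 (f_markov f_fkg f_comp f_comp2 Ex_out)
open Vale.Agent.P167.H192.Q (sq1 sq1_inj mem_im)
open Relation

variable {Q : ℝ} {T C : Finset Pt} {ω : Cfg} {e : Bool} {A : Set Cfg}

/-- the squares of `T \ C` get the colour `e`, the squares outside of `T` the other colour -/
def fil (e : Bool) (T C : Finset Pt) (ω : Cfg) : Cfg := fun v =>
  if v ∈ C then ω v else if v ∈ T then e else !e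

/-- a corner which is shared by `C` and `T \ C` -/
def Shr (T C : Finset Pt) (u : Pt) : Prop := (∃ c ∈ C, Cor c u) ∧ ∃ t ∈ T, t ∉ C ∧ Cor t u

/-- all the shared corners of the colour `e` are joined outside of `C` -/
def Wd (e : Bool) (T C : Finset Pt) (ω : Cfg) : Prop := ∀ u v : Pt, (u.1 + u.2) % 2 = pr e →
  (v.1 + v.2) % 2 = pr e → Shr T C u → Shr T C v →
    ReflTransGen (PStep {w | ω w = e ∧ w ∉ C}) u v

theorem fil_in {v : Pt} (h : v ∈ C) : fil e T C ω v = ω v := by simp [fil, h]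

theorem fil_loc : Loc C (fun ω => {ω | fil e T C ω ∈ A}.indicator (1 : Cfg → ℝ) ω) := by
  intro ω ω' h
  have h1 : fil e T C ω = fil e T C ω' := by
    funext v
    by_cases hv : v ∈ C
    · rw [fil_in hv, fil_in hv, h v hv]
    · simp only [fil, hv, if_false]
  have h2 : ω ∈ {ω | fil e T C ω ∈ A} ↔ ω' ∈ {ω | fil e T C ω ∈ A} := by
    simp only [Set.mem_ofPred_eq, h1]
  by_cases h3 : ω ∈ {ω | fil e T C ω ∈ A}
  · simp only [Set.indicator_of_mem h3, Set.indicator_of_mem (h2.1 h3)]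
    rfl
  · simp only [Set.indicator_of_notMem h3, Set.indicator_of_notMem fun h => h3 (h2.2 h)]

theorem fil_inc (hA : IncC e A) : IncC e {ω | fil e T C ω ∈ A} := by
  intro o o' h ho
  refine hA _ _ (fun v hv => ?_) ho
  by_cases h1 : v ∈ C
  · rw [fil_in h1] at hv ⊢
    exact h v hv
  · simp only [fil, h1, if_false] at hv ⊢
    exact hv

/-- connections are at least as good -/
theorem bank_pc {S S' : Finset Pt} (hW : Wd true T C ω) {a u : Pt} (ha : a ∈ C)
    (h : PC (cf C (cf T (cst false) S) S') (FK.pa a) u) :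
    (PC (cf C ω S') (FK.pa a) u ∧ ∃ c ∈ C, Cor c u) ∨
      (∃ w, Shr T C w ∧ Even (w.1 + w.2) ∧ PC (cf C ω S') (FK.pa a) w ∧ ∃ t ∈ T, t ∉ C ∧ Cor t u) := by
  have up : ∀ {u v : Pt}, ReflTransGen (PStep {w | ω w = true ∧ w ∉ C}) u v →
      PC (cf C ω S') u v := fun h => H166.rtg_mono (fun v hv => by
    show cf C ω S' v = true
    rw [cf_out hv.2]
    exact hv.1) h
  unfold PC at h
  induction h with
  | refl => exact Or.inl ⟨ReflTransGen.refl, a, ha, (cor_pa a).1⟩
  | @tail u w hu huw ih =>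
    have hue : Even (u.1 + u.2) := by
      have := rtg_parity hu
      have h2 := (cor_pa a).2
      rw [Int.even_iff] at *
      omega
    have hcw := cor_of_step huw
    have hm : cf C (cf T (cst false) S) S' (min u.1 w.1, min u.2 w.2) = true := huw.2.2
    by_cases hmC : (min u.1 w.1, min u.2 w.2) ∈ C
    · -- a step in `C`
      have hu1 : PC (cf C ω S') (FK.pa a) u := by
        rcases ih with ⟨h1, -⟩ | ⟨x, hx, hxe, hx1, t, ht, htC, htu⟩
        · exact h1
        · refine ReflTransGen.trans hx1 (up (hW x u ?_ ?_ hx ⟨⟨_, hmC, hcw.1⟩, t, ht, htC, htu⟩))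
          · rw [Int.even_iff] at hxe; simpa [pr] using hxe
          · rw [Int.even_iff] at hue; simpa [pr] using hue
      refine Or.inl ⟨hu1.tail ⟨huw.1, huw.2.1, ?_⟩, _, hmC, hcw.2⟩
      show cf C ω S' _ = true
      rw [H519.cf_in hmC] at hm ⊢
      exact hm
    · have hmT : (min u.1 w.1, min u.2 w.2) ∈ T := by
        by_contra hc
        rw [cf_out hmC, cf_out hc] at hm
        simp [cst] at hm
      rcases ih with ⟨h1, c, hc, hcu⟩ | ⟨x, hx, hxe, hx1, -⟩
      · exact Or.inr ⟨u, ⟨⟨c, hc, hcu⟩, _, hmT, hmC, hcw.1⟩, hue, h1, _, hmT, hmC, hcw.2⟩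
      · exact Or.inr ⟨x, hx, hxe, hx1, _, hmT, hmC, hcw.2⟩

/-- the primal case -/
theorem bank_true (hQ : 1 ≤ Q) (hω : Good ω) (hC : C ⊆ T) (hW : Wd true T C ω)
    (hA : IncC true A) : Pr Q T (cst false) A ≤ Pr Q C ω {ω | fil true T C ω ∈ A} := by
  have hQ0 : 0 < Q := by linarith
  unfold Pr
  rw [f_markov Q C T (cst false) _ hQ0 hC (good_cst false),
    ← Ex_const (Q := Q) (D := T) (η := cst false) hQ0
      (Ex Q C ω ({ω | fil true T C ω ∈ A}.indicator 1))]
  refine Ex_mono hQ0 fun S _ => ?_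
  have g1 : Good (cf T (cst false) S) := f_good.1 _ _ _ (good_cst false)
  have h1 : Ex Q C (cf T (cst false) S) (A.indicator 1) ≤
      Ex Q C (cf T (cst false) S) ({ω | fil true T C ω ∈ A}.indicator 1) := by
    refine Ex_mono hQ0 fun S' _ => ?_
    by_cases h : cf C (cf T (cst false) S) S' ∈ A
    · have h3 : cf C (cf T (cst false) S) S' ∈ {ω | fil true T C ω ∈ A} := by
        refine hA _ _ (fun v hv => ?_) h
        by_cases h1 : v ∈ C
        · rw [fil_in h1]; exact hv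
        · by_cases h2 : v ∈ T
          · simp [fil, h1, h2]
          · rw [cf_out h1, cf_out h2] at hv
            simp [cst] at hv
      rw [Set.indicator_of_mem h, Set.indicator_of_mem h3]
    · rw [Set.indicator_of_notMem h]
      exact ind_nonneg _ _
  refine h1.trans (f_comp2 Q C _ _ _ hQ g1 hω (fun S' _ a ha _ h => ?_)
    (IncC.incS (fil_inc hA)).incF fil_loc)
  rcases bank_pc hW ha h with ⟨h2, -⟩ | ⟨w, hw, hwe, hw1, t, ht, htC, htu⟩
  · exact h2
  · refine ReflTransGen.trans hw1 (H166.rtg_mono (fun v hv => ?_) (hW w (FK.pb a) ?_ ?_ hw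
      ⟨⟨a, ha, (cor_pb a).1⟩, t, ht, htC, htu⟩))
    · show cf C ω S' v = true
      rw [cf_out hv.2]
      exact hv.1
    · rw [Int.even_iff] at hwe; simpa [pr] using hwe
    · have := (cor_pb a).2
      rw [Int.even_iff] at this; simpa [pr] using this

/-! ### Duality -/

theorem du_sq1 (ω : Cfg) (v : Pt) : du ω (sq1 v) = !(ω v) := by simp [du, sq1]

theorem dui_sq1 (ω : Cfg) (v : Pt) : H519.dui ω v = !(ω (sq1 v)) := rfl

theorem dui_cst (b : Bool) : H519.dui (cst b) = cst (!b) := rfl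

theorem du_cst (b : Bool) : du (cst b) = cst (!b) := rfl

theorem inc_du (hA : IncC false A) : IncC true {ω | H519.dui ω ∈ A} := by
  intro o o' h ho
  refine hA _ _ (fun v hv => ?_) ho
  rw [dui_sq1, Bool.not_eq_false'] at hv ⊢
  exact h _ hv

theorem cor_sq1 {v u : Pt} : Cor (sq1 v) (sq1 u) ↔ Cor v u := by
  simp only [Cor, sq1]
  omega

theorem sq1_surj (v : Pt) : ∃ w, sq1 w = v := ⟨(v.1 - 1, v.2), by simp [sq1]⟩

theorem im_mem {A : Finset Pt} {v : Pt} : sq1 v ∈ A.image sq1 ↔ v ∈ A := by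
  rw [mem_im]
  simp [sq1]

theorem shr_sq1 {u : Pt} : Shr (T.image sq1) (C.image sq1) (sq1 u) ↔ Shr T C u := by
  constructor
  · rintro ⟨⟨c, hc, hcu⟩, t, ht, htC, htu⟩
    obtain ⟨c', rfl⟩ := sq1_surj c
    obtain ⟨t', rfl⟩ := sq1_surj t
    exact ⟨⟨c', im_mem.1 hc, cor_sq1.1 hcu⟩, t', im_mem.1 ht, fun h => htC (im_mem.2 h),
      cor_sq1.1 htu⟩
  · rintro ⟨⟨c, hc, hcu⟩, t, ht, htC, htu⟩
    exact ⟨⟨_, im_mem.2 hc, cor_sq1.2 hcu⟩, _, im_mem.2 ht, fun h => htC (im_mem.1 h),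
      cor_sq1.2 htu⟩

theorem step_sq1 {F : Set Pt} {u v : Pt} (h : PStep {w | sq1 w ∈ F} u v) :
    PStep F (sq1 u) (sq1 v) := by
  obtain ⟨h1, h2, h3⟩ := h
  refine ⟨by simp only [sq1]; omega, by simp only [sq1]; omega, ?_⟩
  have e1 : ((min (sq1 u).1 (sq1 v).1, min (sq1 u).2 (sq1 v).2) : Pt) =
      sq1 (min u.1 v.1, min u.2 v.2) := by
    refine Prod.ext ?_ rfl
    simp only [sq1]
    omega
  rw [e1]
  exact h3

theorem Wd.du (hW : Wd false T C ω) : Wd true (T.image sq1) (C.image sq1) (du ω) := by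
  intro u v hu hv h1 h2
  obtain ⟨u', rfl⟩ := sq1_surj u
  obtain ⟨v', rfl⟩ := sq1_surj v
  have h3 := hW u' v' (by simp only [pr, sq1, if_true, Bool.false_eq_true, if_false] at *; omega)
    (by simp only [pr, sq1, if_true, Bool.false_eq_true, if_false] at *; omega)
    (shr_sq1.1 h1) (shr_sq1.1 h2)
  clear hv h2
  induction h3 with
  | refl => exact ReflTransGen.refl
  | @tail a b _ hab ih =>
    refine ih.tail (step_sq1 ?_)
    obtain ⟨s1, s2, s3, s4⟩ := hab
    refine ⟨s1, s2, ?_, ?_⟩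
    · show FK.du ω (sq1 _) = true
      rw [du_sq1, s3]
      rfl
    · exact fun h => s4 (im_mem.1 h)

theorem fil_du : H519.dui (fil true (T.image sq1) (C.image sq1) ω) = fil false T C (H519.dui ω) := by
  funext v
  rw [dui_sq1]
  simp only [fil, im_mem]
  by_cases h1 : v ∈ C
  · simp only [h1, if_true, dui_sq1]
  · by_cases h2 : v ∈ T <;> simp [h1, h2]

theorem pr_du (hQ : 1 ≤ Q) {D : Finset Pt} {η : Cfg} (hη : Good η) (A : Set Cfg) :
    Pr Q D η A = Pr Q (D.image sq1) (du η) {ω | H519.dui ω ∈ A} :=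
  H192.Q.ex_du hQ hη _

/-- **Comparison at a bank**, both colours. -/
theorem bank (hQ : 1 ≤ Q) (hω : Good ω) (hC : C ⊆ T) (hW : Wd e T C ω) (hA : IncC e A) :
    Pr Q T (cst (!e)) A ≤ Pr Q C ω {ω | fil e T C ω ∈ A} := by
  cases e
  · rw [pr_du hQ (good_cst _), pr_du hQ hω, du_cst]
    refine (bank_true hQ (f_dual.1 _ hω) (Finset.image_subset_image hC) hW.du (inc_du hA)).trans
      (le_of_eq ?_)
    congr 1
    ext o
    simp only [Set.mem_ofPred_eq, fil_du]
  · exact bank_true hQ hω hC hW hA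

/-! ### Extension of arms -/

/-- **Extension**: an event `B` of the same colour which has conditional probability at least `c` can
be added, whatever happens outside of the tube `T`. -/
theorem ext1 (hQ : 1 ≤ Q) {D : Finset Pt} {η : Cfg} (hη : Good η) (hT : T ⊆ D) {G : Cfg → ℝ}
    (hG : Ind T G) (hG0 : ∀ ω, 0 ≤ G ω) {B : Set Cfg} (hA : IncC e A) (hB : IncC e B) {c : ℝ}
    (h : ∀ ω, Good ω → (∀ v, v ∉ D → ω v = η v) → G ω ≠ 0 → c ≤ Pr Q T ω B) :
    c * Ex Q D η (fun ω => G ω * A.indicator 1 ω) ≤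
      Ex Q D η (fun ω => G ω * (A ∩ B).indicator 1 ω) := by
  have hQ0 : 0 < Q := by linarith
  rw [markov f_markov hQ0 hT hη hG (F := A.indicator 1),
    markov f_markov hQ0 hT hη hG (F := (A ∩ B).indicator 1), ← Ex_mul_left]
  refine Ex_mono hQ0 fun S _ => ?_
  have hg := f_good.1 D η S hη
  by_cases h0 : G (cf D η S) = 0
  · simp [h0]
  · have h1 := h _ hg (fun v hv => cf_out hv) h0
    have h2 := prC_inter (Q := Q) (D := T) hQ hg hA hB
    have h3 : 0 ≤ Pr Q T (cf D η S) A := Pr_nonneg hQ0 _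
    have h4 : c * Pr Q T (cf D η S) A ≤ Pr Q T (cf D η S) (A ∩ B) := by nlinarith
    calc c * (G (cf D η S) * Ex Q T (cf D η S) (A.indicator 1)) =
        G (cf D η S) * (c * Pr Q T (cf D η S) A) := by unfold Pr; ring
      _ ≤ _ := mul_le_mul_of_nonneg_left h4 (hG0 _)

/-- two tubes of different colours -/
theorem ext2 (hQ : 1 ≤ Q) {D T' : Finset Pt} {η : Cfg} (hη : Good η) (hT : T ⊆ D) (hT' : T' ⊆ D)
    {G : Cfg → ℝ} (hG : Ind T G) (hG' : Ind T' G) (hG0 : ∀ ω, 0 ≤ G ω) {B A' B' : Set Cfg}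
    {e' : Bool} (hA : IncC e A) (hB : IncC e B) (hA' : IncC e' A') (hB' : IncC e' B')
    (iA : Ind T' (A.indicator 1)) (iB : Ind T' (B.indicator 1)) (iA' : Ind T (A'.indicator 1))
    {c c' : ℝ} (hc' : 0 ≤ c')
    (h : ∀ ω, Good ω → (∀ v, v ∉ D → ω v = η v) → G ω ≠ 0 → c ≤ Pr Q T ω B)
    (h' : ∀ ω, Good ω → (∀ v, v ∉ D → ω v = η v) → G ω ≠ 0 → c' ≤ Pr Q T' ω B') :
    c * c' * Ex Q D η (fun ω => G ω * (A ∩ A').indicator 1 ω) ≤
      Ex Q D η (fun ω => G ω * ((A ∩ B) ∩ (A' ∩ B')).indicator 1 ω) := by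
  have hQ0 : 0 < Q := by linarith
  have e1 := ext1 hQ hη hT (G := fun ω => G ω * A'.indicator 1 ω) (hG.mul iA')
    (fun ω => mul_nonneg (hG0 ω) (ind_nonneg _ _)) hA hB (c := c)
    (fun ω h1 h2 h3 => h ω h1 h2 fun h4 => h3 (by simp [h4]))
  have iAB : Ind T' ((A ∩ B).indicator 1) := by
    have := iA.mul iB
    intro ω ω' h
    rw [ind_inter, ind_inter]
    exact this ω ω' h
  have e2 := ext1 hQ hη hT' (G := fun ω => G ω * (A ∩ B).indicator 1 ω) (hG'.mul iAB)
    (fun ω => mul_nonneg (hG0 ω) (ind_nonneg _ _)) hA' hB' (c := c')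
    (fun ω h1 h2 h3 => h' ω h1 h2 fun h4 => h3 (by simp [h4]))
  have r1 : Ex Q D η (fun ω => G ω * A'.indicator 1 ω * A.indicator 1 ω) =
      Ex Q D η (fun ω => G ω * (A ∩ A').indicator 1 ω) :=
    Ex_congr fun S _ => by rw [ind_inter]; ring
  have r2 : Ex Q D η (fun ω => G ω * A'.indicator 1 ω * (A ∩ B).indicator 1 ω) =
      Ex Q D η (fun ω => G ω * (A ∩ B).indicator 1 ω * A'.indicator 1 ω) :=
    Ex_congr fun S _ => by ring
  have r3 : Ex Q D η (fun ω => G ω * (A ∩ B).indicator 1 ω * (A' ∩ B').indicator 1 ω) =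
      Ex Q D η (fun ω => G ω * ((A ∩ B) ∩ (A' ∩ B')).indicator 1 ω) :=
    Ex_congr fun S _ => by rw [ind_inter (A ∩ B)]; ring
  rw [r1, r2] at e1
  rw [r3] at e2
  calc _ = c' * (c * Ex Q D η (fun ω => G ω * (A ∩ A').indicator 1 ω)) := by ring
    _ ≤ _ := (mul_le_mul_of_nonneg_left e1 hc').trans e2

end Vale.Agent.P167.H704.Q
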