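import Vale.Agent.P167.H318.Q.Gate

/-!
# P167, general `q`, block Q-NSYM: `MINOR'` and `GREF'`

The versions of `MINOR` and `GREF` which are consumed by `SUCCA`: the ratio `K1` of the scales is any
number above a threshold, and the mass is bounded at the scales where a state exists.
-/

namespace Vale.Agent.P167.H704.Q

open Vale.Agent.P167 Vale.Agent.P167.FK Vale.Agent.P167.H318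
open Vale.Agent.P167.H318.UQ (Aq Gt ArE ArW Ctr Lnk)
open Vale.Agent.P167.H685.Q (PQ TC hbF)

/-- **MINOR'** -/
def MINOR' (Q : ℝ) : Prop := ∀ K3 K : ℤ, 8 ≤ K3 → K3 + 8 ≤ K → ∃ K00 : ℤ, ∀ K0 : ℤ, K00 ≤ K0 →
  ∃ K6 : ℤ, K ≤ K6 ∧ ∀ K1 : ℤ, K6 ≤ K1 → ∃ (n0 : ℤ) (c : ℝ), 1 ≤ n0 ∧ 0 < c ∧
  ∀ (S : St) (l x ρ n : ℤ) (γ : Cfg) (e : Ed),
  n0 ≤ n → K1 * n ≤ l → l ≤ 2 * K1 * n → 20 * l ≤ ρ → TC S l x ρ → Gt K3 K x n γ e →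
  c * FK.Pr Q (hbF x (K0 * n)) eta0 {ξ | (∀ v ∈ Aq K3 K x n, ξ v = γ v) ∧ ArE K3 K x n ξ e ∧
    ArW K3 K x n ξ e} ≤
  PQ Q S ({ξ | ∀ v ∈ Aq K3 K x n, ξ v = γ v} ∩ Lnk K3 S x n ρ e)

/-- **GREF'** -/
def GREF' (Q : ℝ) : Prop := ∃ K3 K K00 : ℤ, 8 ≤ K3 ∧ K3 + 8 ≤ K ∧ ∀ K0 : ℤ, K00 ≤ K0 →
  ∃ K6 : ℤ, ∀ K1 : ℤ, K6 ≤ K1 → ∃ (n0 : ℤ) (c : ℝ), 1 ≤ n0 ∧ 0 < c ∧
  ∀ (S : St) (l x ρ n l' : ℤ), n0 ≤ n → 1 ≤ l' → 4 * l' ≤ n → K1 * n ≤ l → l ≤ 2 * K1 * n →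
  20 * l ≤ ρ → TC S l x ρ →
  c ≤ FK.Pr Q (hbF x (K0 * n)) eta0 {ξ | ∃ e, Gt K3 K x n ξ e ∧ ArE K3 K x n ξ e ∧
    ArW K3 K x n ξ e ∧ Ctr K3 K x n l' ξ e}

end Vale.Agent.P167.H704.Q
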