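import Vale.Agent.P167.H704.Q.MinB
import Vale.Agent.P167.H704.Q.GDefs

/-!
# P167, general `q`, block Q-NSYM: minorization

`minor : 1 ≤ Q → RSW Q → MINOR Q`: uniformly in the state (tip at height `4 l`, all pasts, all
outsides), the probability of a configuration of the half annulus with a gate whose sites are joined to
the two banks of the tip off the central box is at least `c` times the probability of the same
configuration with arms in a reference box.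
-/

namespace Vale.Agent.P167.H704.Q

open Finset Vale.Agent.P145.FB Vale.Agent.P153 Vale.Agent.P153.Topo Vale.Agent.P167
  Vale.Agent.P167.H632 Vale.Agent.P167.H871 Vale.Agent.P167.H704 Vale.Agent.P167.FK
  Vale.Agent.P167.FKA
open Vale.Agent.P167.H318 (St Pt0 st)
open Vale.Agent.P167.H318.UQ (Rc mem_Rc Oc Dc Cq Aq Gt Te Tw ArE ArW Uh Lnk MINOR)
open Vale.Agent.P167.H685.Q (EQ PQ Gq TC hbF mem_hbF)
open Relation

theorem opc (ω : Cfg) : (op ω)ᶜ = cs false ω := by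
  ext v
  simp [op, cs]

/-- the squares of the arm of colour `b` -/
noncomputable def VA (b : Bool) (K3 K x n : ℤ) : Finset Pt :=
  if b then (Aq K3 K x n ∪ Te K x n).filter fun v => n ≤ v.2
  else (Aq K3 K x n ∪ Tw K x n).filter fun v => n ≤ v.2

/-- the arm of colour `b` -/
def AM (b : Bool) (K3 K x n : ℤ) (e : Ed) : Set Cfg := {ξ | ∃ t : Pt, Far b x (K * n) t ∧
  PConn (cs b ξ ∩ ↑(VA b K3 K x n)) Set.univ (bk b e) t}

theorem am_true {K3 K x n : ℤ} {ξ : Cfg} {e : Ed} :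
    ξ ∈ AM true K3 K x n e ↔ ArE K3 K x n ξ e := Iff.rfl

theorem am_false {K3 K x n : ℤ} {ξ : Cfg} {e : Ed} :
    ξ ∈ AM false K3 K x n e ↔ ArW K3 K x n ξ e := by
  unfold ArW Dc
  simp only [opc]
  exact Iff.rfl

variable {K3 K x n : ℤ} {b : Bool}

theorem mem_Aq' {v : Pt} : v ∈ Aq K3 K x n ↔ (x - K * n ≤ v.1 ∧ v.1 ≤ x + K * n ∧ 0 ≤ v.2 ∧
    v.2 ≤ K * n) ∧ ¬ ((x - K3 * n ≤ v.1 ∧ v.1 ≤ x + K3 * n) ∧ 0 ≤ v.2 ∧ v.2 ≤ 4 * n - 1) := by
  rw [Aq, Finset.mem_sdiff, Cq, mem_Rc, mem_hbF]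
  simp only [H318.HB, Set.mem_ofPred_eq]

theorem mem_VA {v : Pt} : v ∈ VA b K3 K x n ↔ n ≤ v.2 ∧ (v ∈ Aq K3 K x n ∨ (v.2 ≤ 2 * n - 1 ∧
    ((b = true ∧ x + K * n + 1 ≤ v.1 ∧ v.1 ≤ x + 2 * (K * n)) ∨
      (b = false ∧ x - 2 * (K * n) ≤ v.1 ∧ v.1 ≤ x - K * n - 1)))) := by
  cases b
  · rw [VA, if_neg (by simp), Finset.mem_filter, Finset.mem_union, Tw, mem_Rc]
    constructor
    · rintro ⟨h1 | h1, h2⟩
      · exact ⟨h2, Or.inl h1⟩
      · exact ⟨h2, Or.inr ⟨h1.2.2, Or.inr ⟨rfl, h1.1.1, h1.1.2⟩⟩⟩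
    · rintro ⟨h2, h1 | ⟨h3, ⟨h4, -⟩ | ⟨-, h4, h5⟩⟩⟩
      · exact ⟨Or.inl h1, h2⟩
      · simp at h4
      · exact ⟨Or.inr ⟨⟨h4, h5⟩, h2, h3⟩, h2⟩
  · rw [VA, if_pos rfl, Finset.mem_filter, Finset.mem_union, Te, mem_Rc]
    constructor
    · rintro ⟨h1 | h1, h2⟩
      · exact ⟨h2, Or.inl h1⟩
      · exact ⟨h2, Or.inr ⟨h1.2.2, Or.inl ⟨rfl, h1.1.1, h1.1.2⟩⟩⟩
    · rintro ⟨h2, h1 | ⟨h3, ⟨-, h4, h5⟩ | ⟨h4, -⟩⟩⟩
      · exact ⟨Or.inl h1, h2⟩
      · exact ⟨Or.inr ⟨⟨h4, h5⟩, h2, h3⟩, h2⟩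
      · simp at h4

theorem dep_AM (b : Bool) (K3 K x n : ℤ) (e : Ed) :
    Dep (VA b K3 K x n) (AM b K3 K x n e) := by
  rintro o o' ho ⟨t, h1, h2⟩
  have hs : cs b o ∩ ↑(VA b K3 K x n) ⊆ cs b o' ∩ ↑(VA b K3 K x n) := fun v hv => ⟨by
    show o' v = b
    rw [← ho v hv.2]
    exact hv.1, hv.2⟩
  exact ⟨t, h1, h2.mono hs subset_rfl⟩

theorem inc_AM (b : Bool) (K3 K x n : ℤ) (e : Ed) : IncC b (AM b K3 K x n e) := by
  rintro o o' ho ⟨t, h1, h2⟩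
  have hs : cs b o ∩ ↑(VA b K3 K x n) ⊆ cs b o' ∩ ↑(VA b K3 K x n) :=
    fun v hv => ⟨ho v hv.1, hv.2⟩
  exact ⟨t, h1, h2.mono hs subset_rfl⟩

/-- the given configuration of the half annulus -/
def Eγ (K3 K x n : ℤ) (γ : Cfg) : Set Cfg := {ξ | ∀ v ∈ Aq K3 K x n, ξ v = γ v}

theorem dep_Eγ (γ : Cfg) : Dep (Aq K3 K x n) (Eγ K3 K x n γ) := fun o o' ho h v hv => by
  rw [← ho v hv]
  exact h v hv

theorem aq_TR {S : St} {U : Pt → ℤ} {l : ℤ} (hl : 4 * (K * n) ≤ l)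
    (b : Bool) : Disjoint (Aq K3 K x n) (TR b S U x l (K * n)) := by
  rw [Finset.disjoint_left]
  intro v hv h
  rw [mem_Aq'] at hv
  rcases Finset.mem_union.1 h with h1 | h1
  · rw [mem_ER] at h1
    obtain ⟨h2 | h2, -, -⟩ := h1 <;> omega
  · have h2 := CU_sub h1
    rw [mem_TT] at h2
    omega

theorem va_TR {S : St} {U : Pt → ℤ} {l : ℤ} (hK : 16 * n ≤ K * n)
    (hl : 4 * (K * n) ≤ l) (b : Bool) :
    Disjoint (VA b K3 K x n) (TR (!b) S U x l (K * n)) := by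
  rw [Finset.disjoint_left]
  intro v hv h
  rw [mem_VA] at hv
  obtain ⟨h1, h2 | ⟨h2, h3⟩⟩ := hv
  · exact Finset.disjoint_left.1 (aq_TR hl (!b)) h2 h
  · rcases Finset.mem_union.1 h with h4 | h4
    · rw [mem_ER] at h4
      obtain ⟨h5, -, -⟩ := h4
      rcases h3 with ⟨rfl, h3⟩ | ⟨rfl, h3⟩ <;> rcases h5 with ⟨h6, h7⟩ | ⟨h6, h7⟩
      · simp at h6
      · omega
      · omega
      · simp at h6
    · have h5 := CU_sub h4
      rw [mem_TT] at h5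
      rcases h3 with ⟨-, h3⟩ | ⟨-, h3⟩ <;> omega

/-- the two links -/
theorem lnk_side {ω : Cfg} {S : St} {U : Pt → ℤ} {l ρ : ℤ} {e : Ed} {y : ℤ} (hn : 1 ≤ n)
    (hK3 : 8 ≤ K3) (hKK : K3 + 8 ≤ K) (hl : 4 * (K * n) ≤ l) (hρ : 20 * l ≤ ρ)
    (he : e = Sum.inr (y, 4 * n - 1)) (hy : Odd y) (hyx : |y - x| ≤ 4 * n)
    (h1 : ω ∈ AM b K3 K x n e) (h2 : ω ∈ BE b S (CU b S (TT x l) U) x l (K * n) n) :
    ∃ i ≤ S.m, PConn (cs b ω ∩ (↑(Cq K3 x n))ᶜ) (Uh x ρ n) (bk b e) (bk b (st S.e0 S.z i)) := by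
  have k1 : 8 * n ≤ K3 * n := mul_le_mul_of_nonneg_right hK3 (by omega)
  have k2 : K3 * n + 8 * n ≤ K * n := by
    have := mul_le_mul_of_nonneg_right hKK (show 0 ≤ n by omega)
    linarith
  obtain ⟨t, ht, harm⟩ := h1
  have hev : Even (y + (4 * n - 1)) := by
    obtain ⟨j, hj⟩ := hy
    exact ⟨j + 2 * n, by omega⟩
  have hb : (bk b e).2 = 4 * n ∧ y ≤ (bk b e).1 ∧ (bk b e).1 ≤ y + 1 := by
    rw [he]
    cases b
    · simp only [bk, rs, hev, if_true, Bool.false_eq_true, if_false]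
      omega
    · simp only [bk, ls, hev, if_true]
      omega
  rw [abs_le] at hyx
  refine glue (N := K * n) (C := Cq K3 x n) hn (by omega) hl hρ (fun v hv => ?_) (fun v hv hv' => ?_)
    (fun v hv => ?_) (by omega) (by omega) (by omega) (by omega) (bk_par b e) ht harm h2
  · rw [Cq, mem_Rc] at hv
    omega
  · have h3 := CU_sub hv
    rw [mem_TT] at h3
    rw [Cq, mem_Rc] at hv'
    omega
  · rw [mem_VA] at hv
    obtain ⟨g1, g2 | ⟨g2, g3⟩⟩ := hv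
    · rw [mem_Aq'] at g2
      refine ⟨fun h => ?_, by omega, by omega, g1, by omega, fun h => ?_⟩
      · rw [Cq, mem_Rc] at h
        exact g2.2 h
      · unfold Sd at h
        split_ifs at h <;> omega
    · refine ⟨fun h => ?_, ?_, ?_, g1, by omega, fun _ => by omega⟩
      · rw [Cq, mem_Rc] at h
        rcases g3 with ⟨-, g3⟩ | ⟨-, g3⟩ <;> omega
      · rcases g3 with ⟨-, g3⟩ | ⟨-, g3⟩ <;> omega
      · rcases g3 with ⟨-, g3⟩ | ⟨-, g3⟩ <;> omega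

/-- comparison with the reference box -/
theorem ref_le {Q : ℝ} (hQ : 1 ≤ Q) {L : ℤ} (hL : H519.Rat Q L) {S : St} {l ρ K0 : ℤ} (hn : 1 ≤ n)
    (hK3 : 8 ≤ K3) (hKK : K3 + 8 ≤ K) (hK0 : L * (L * (3 * K)) ≤ K0) (hl : K0 * n ≤ l)
    (hρ : 20 * l ≤ ρ) (hS : TC S l x ρ) {F : Cfg → ℝ} (hF0 : ∀ ω, 0 ≤ F ω)
    (hF : Loc (VA true K3 K x n ∪ VA false K3 K x n ∪ Aq K3 K x n) F) :
    Ex Q (hbF x (K0 * n)) eta0 F ≤ 8 * Ex Q S.F S.z F := by
  have hL2 := hL.1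
  have k0 : 16 * n ≤ K * n := mul_le_mul_of_nonneg_right (by omega) (by omega)
  have k1 : L * (L * (3 * K * n)) ≤ K0 * n := by
    have := mul_le_mul_of_nonneg_right hK0 (show 0 ≤ n by omega)
    linarith
  have k2 : 3 * (K * n) ≤ L * (L * (3 * K * n)) := by
    have t0 : 0 ≤ 3 * K * n := by nlinarith
    have t1 : 3 * K * n ≤ L * (3 * K * n) := by nlinarith
    have t2 : L * (3 * K * n) ≤ L * (L * (3 * K * n)) := by nlinarith
    linarith
  set R := L * (L * (3 * K * n)) with hR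
  have hVV : ∀ v ∈ VA true K3 K x n ∪ VA false K3 K x n ∪ Aq K3 K x n,
      x - 2 * (K * n) ≤ v.1 ∧ v.1 ≤ x + 2 * (K * n) ∧ 0 ≤ v.2 ∧ v.2 ≤ K * n := by
    intro v hv
    rw [Finset.mem_union, Finset.mem_union, mem_VA, mem_VA] at hv
    rcases hv with (⟨h1, h2 | ⟨h2, h3⟩⟩ | ⟨h1, h2 | ⟨h2, h3⟩⟩) | h2
    · rw [mem_Aq'] at h2
      omega
    · rcases h3 with ⟨-, h3⟩ | ⟨h3, -⟩
      · omega
      · simp at h3
    · rw [mem_Aq'] at h2
      omega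
    · rcases h3 with ⟨h3, -⟩ | ⟨-, h3⟩
      · simp at h3
      · omega
    · rw [mem_Aq'] at h2
      omega
  have hbq : ∀ v ∈ Bq (x, 0) R, (v ∈ hbF x (K0 * n) ↔ 0 ≤ v.2) ∧ (v ∈ S.F ↔ 0 ≤ v.2) ∧
      (v.2 < 0 → S.z v = false) := by
    intro v hv
    rw [H167.Q.mem_Bq] at hv
    dsimp only at hv
    refine ⟨?_, ⟨fun h => ?_, fun h => ?_⟩, fun h => ?_⟩
    · rw [mem_hbF]
      simp only [H318.HB, Set.mem_ofPred_eq]
      omega
    · by_contra hc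
      exact (hS.gq.row v (by omega) (by omega) (by omega) (by omega)).1 h
    · exact hS.fresh v ⟨by omega, by omega, h, by omega⟩
    · exact (hS.gq.row v (by omega) (by omega) (by omega) (by omega)).2
  refine H192.Q.rat_bdy_dom (x := (x, 0)) (r := 3 * K * n) (R := R) hQ hL (by nlinarith) le_rfl ?_ ?_
    (fun v hv => ?_) hF0 hF f_good.2.1 hS.gq.good (fun v _ _ => rfl) (fun v hv hvD => ?_)
  · ext v
    rw [Finset.mem_inter, Finset.mem_inter]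
    constructor
    · rintro ⟨h1, h2⟩
      exact ⟨(hbq v h2).2.1.2 ((hbq v h2).1.1 h1), h2⟩
    · rintro ⟨h1, h2⟩
      exact ⟨(hbq v h2).1.2 ((hbq v h2).2.1.1 h1), h2⟩
  · intro v hv
    have h1 := hVV v hv
    rw [mem_hbF]
    simp only [H318.HB, Set.mem_ofPred_eq]
    omega
  · have h1 := hVV v hv
    rw [H167.Q.mem_Bq]
    dsimp only
    have : 3 * K * n = 3 * (K * n) := by ring
    omega
  · have h1 := hbq v hv
    exact h1.2.2 (by
      by_contra hc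
      exact hvD (h1.2.1.2 (by omega)))

/-- **MINOR'.** -/
theorem minor' {Q : ℝ} (hQ : 1 ≤ Q) (h : RSW Q) : MINOR' Q := by
  have hQ0 : 0 < Q := by linarith
  obtain ⟨α, C, hα, -, hP, hD⟩ := arm_fk hQ h
  obtain ⟨L, hL⟩ := H519.exists_rat hQ hα hP hD
  intro K3 K hK3 hKK
  refine ⟨L * (L * (3 * K)), fun K0 hK0 => ⟨max K0 (4 * K), by omega, fun K1 hK1 => ?_⟩⟩
  obtain ⟨c, n0, hc, hc1, hn0, hB⟩ := be_ge hQ h (2 * K1).toNat
  refine ⟨n0, c * c / 8, hn0, by positivity, fun S l x ρ n γ e hn hl hl' hρ hS hG => ?_⟩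
  have hn1 : 1 ≤ n := by omega
  have m0 : 4 * (K * n) ≤ l := by
    have := mul_le_mul_of_nonneg_right (show 4 * K ≤ K1 by omega) (show 0 ≤ n by omega)
    linarith
  have m1 : K0 * n ≤ l := by
    have := mul_le_mul_of_nonneg_right (show K0 ≤ K1 by omega) (show 0 ≤ n by omega)
    linarith
  have m2 : 16 * n ≤ K * n := mul_le_mul_of_nonneg_right (by omega) (by omega)
  have m3 : l ≤ ((2 * K1).toNat : ℤ) * n := by
    rw [Int.toNat_of_nonneg (by omega)]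
    exact hl'
  obtain ⟨⟨y, he, hy, hyx⟩, -, -⟩ := hG
  have hTB : H318.TB S x ρ (4 * l) (ρ + 1) x := hS.toTB
  obtain ⟨U, hU⟩ := H318.exists_pt0 hTB.toOk (show (1 : ℤ) ≤ 4 * l by omega) hTB.tip_hdv
    (hTB.flat.not x (by omega) (by omega))
  have hz : Good S.z := hS.gq.good
  -- the functions
  set F : Cfg → ℝ := fun ω => (Eγ K3 K x n γ).indicator 1 ω *
    (AM true K3 K x n e ∩ AM false K3 K x n e).indicator 1 ω with hFdef
  have hF0 : ∀ ω, 0 ≤ F ω := fun ω => mul_nonneg (ind_nonneg _ _) (ind_nonneg _ _)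
  have hF : Loc (VA true K3 K x n ∪ VA false K3 K x n ∪ Aq K3 K x n) F := by
    intro o o' ho
    have e1 := dep_loc (dep_Eγ (K3 := K3) (K := K) (x := x) (n := n) γ) o o' fun v hv =>
      ho v (Finset.mem_union_right _ hv)
    have e2 := dep_loc (dep_AM true K3 K x n e) o o' fun v hv =>
      ho v (Finset.mem_union_left _ (Finset.mem_union_left _ hv))
    have e3 := dep_loc (dep_AM false K3 K x n e) o o' fun v hv =>
      ho v (Finset.mem_union_left _ (Finset.mem_union_right _ hv))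
    simp only [hFdef, ind_inter]
    rw [e1, e2, e3]
  have s1 := ref_le hQ hL hn1 hK3 hKK hK0 m1 hρ hS hF0 hF
  have s0 : FK.Pr Q (hbF x (K0 * n)) eta0 {ξ | (∀ v ∈ Aq K3 K x n, ξ v = γ v) ∧
      ArE K3 K x n ξ e ∧ ArW K3 K x n ξ e} = Ex Q (hbF x (K0 * n)) eta0 F := by
    have e1 : {ξ : Cfg | (∀ v ∈ Aq K3 K x n, ξ v = γ v) ∧ ArE K3 K x n ξ e ∧ ArW K3 K x n ξ e} =
        Eγ K3 K x n γ ∩ (AM true K3 K x n e ∩ AM false K3 K x n e) := by
      ext ξ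
      exact and_congr Iff.rfl (and_congr am_true.symm am_false.symm)
    rw [e1]
    exact Ex_congr fun S _ => ind_inter _ _ _
  -- the extension
  have hsub : ∀ b, TR b S U x l (K * n) ⊆ S.F := fun b v hv =>
    (val_TR hTB (by omega) (by omega) (by omega) (by omega) hU hv).1
  have hpr : ∀ b, ∀ ω, Good ω → (∀ v, v ∉ S.F → ω v = S.z v) →
      (Eγ K3 K x n γ).indicator (1 : Cfg → ℝ) ω ≠ 0 →
      c ≤ Pr Q (TR b S U x l (K * n)) ω (BE b S (CU b S (TT x l) U) x l (K * n) n) :=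
    fun b ω h1 h2 _ => hB b S x ρ l (ρ + 1) x (K * n) n U ω hn m2 m0 m3 (by omega) hTB (by omega)
      (by omega) hU h1 h2
  have s2 := ext2 (Q := Q) (D := S.F) (η := S.z) (T := TR true S U x l (K * n))
    (T' := TR false S U x l (K * n)) (e := true) (e' := false) hQ hz (hsub true) (hsub false)
    (G := (Eγ K3 K x n γ).indicator 1) (dep_ind (dep_Eγ γ) (aq_TR m0 true))
    (dep_ind (dep_Eγ γ) (aq_TR m0 false)) (fun ω => ind_nonneg _ _)
    (inc_AM true K3 K x n e) (inc_BE true S (CU true S (TT x l) U) x l (K * n) n)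
    (inc_AM false K3 K x n e) (inc_BE false S (CU false S (TT x l) U) x l (K * n) n)
    (dep_ind (dep_AM true K3 K x n e) (va_TR m2 m0 true))
    (dep_ind (dep_BE hn1 m2 m0) (disj_TR hTB (by omega) (by omega) (by omega) (by omega) hU true))
    (dep_ind (dep_AM false K3 K x n e) (va_TR m2 m0 false))
    hc.le (hpr true) (hpr false)
  have s3 : Ex Q S.F S.z (fun ω => (Eγ K3 K x n γ).indicator 1 ω *
      ((AM true K3 K x n e ∩ BE true S (CU true S (TT x l) U) x l (K * n) n) ∩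
        (AM false K3 K x n e ∩ BE false S (CU false S (TT x l) U) x l (K * n) n)).indicator 1 ω) ≤
      PQ Q S ({ξ | ∀ v ∈ Aq K3 K x n, ξ v = γ v} ∩ Lnk K3 S x n ρ e) := by
    refine Ex_mono hQ0 fun S' _ => ?_
    rw [← ind_inter]
    refine Set.indicator_le_indicator_of_subset ?_ (fun _ => zero_le_one) _
    rintro ω ⟨h1, ⟨h2, h3⟩, h4, h5⟩
    refine ⟨h1, ?_, ?_⟩
    · exact lnk_side hn1 hK3 hKK m0 hρ he hy hyx h2 h3
    · have h6 := lnk_side hn1 hK3 hKK m0 hρ he hy hyx h4 h5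
      rw [opc]
      exact h6
  rw [s0]
  have s4 : c * c / 8 * Ex Q (hbF x (K0 * n)) eta0 F ≤ c * c * Ex Q S.F S.z F := by
    have : 0 ≤ c * c := by positivity
    nlinarith
  exact s4.trans (s2.trans s3)

/-- **MINOR.** -/
theorem minor {Q : ℝ} (hQ : 1 ≤ Q) (h : RSW Q) : MINOR Q := by
  intro K3 K hK3 hKK
  obtain ⟨K00, h1⟩ := minor' hQ h K3 K hK3 hKK
  refine ⟨K00, fun K0 hK0 => ?_⟩
  obtain ⟨K6, h2, h3⟩ := h1 K0 hK0
  obtain ⟨n0, c, h4, h5, h6⟩ := h3 K6 le_rfl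
  exact ⟨K6, n0, c, h2, h4, h5, h6⟩

end Vale.Agent.P167.H704.Q
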