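import Vale.Agent.P167.H704.Rc
import Vale.Agent.P167.H192.Q.RatB

/-!
# P167, general `q`: crossings of rectangles, uniformly in the boundary condition

`hc_fk`, `vc_fk` : lower bounds for the probability that a rectangle is crossed by the colour `e`,
under the law `Pr Q D η`, if the squares near the rectangle outside of `D` have the colour `e` (for
instance: `D` contains the neighbourhood of the rectangle; or `e = false` next to a free boundary of
any shape; or `e = true` next to a wired boundary). Positive association and monotonicity for a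
colour.
-/

namespace Vale.Agent.P167.H704.Q

open Finset Vale.Agent.P145.FB Vale.Agent.P153 Vale.Agent.P153.Topo Vale.Agent.P167
  Vale.Agent.P167.H632 Vale.Agent.P167.H871 Vale.Agent.P167.H704 Vale.Agent.P167.FK
  Vale.Agent.P167.FKA
open Vale.Agent.P167.H259 (f_markov f_fkg f_comp f_comp2 Ex_out)

variable {Q : ℝ} {D : Finset Pt} {η η' : Cfg} {e : Bool} {A B : Set Cfg}

/-! ### Colours -/

theorem IncC.incS (h : IncC true A) : FKA.IncS A := fun ω ω' h1 h2 => h ω ω' h1 h2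

theorem IncC.decS (h : IncC false A) : DecS A := by
  intro ω ω' h1 h2
  refine h ω' ω (fun v hv => ?_) h2
  by_contra hc
  rw [Bool.not_eq_false] at hc
  rw [h1 v hc] at hv
  simp at hv

/-- positive association for the colour `e` -/
theorem prC_inter (hQ : 1 ≤ Q) (hη : Good η) (hA : IncC e A) (hB : IncC e B) :
    Pr Q D η A * Pr Q D η B ≤ Pr Q D η (A ∩ B) := by
  cases e
  · exact fkg_dec2 f_fkg hQ hη (IncC.decS hA) (IncC.decS hB)
  · have h := f_fkg Q D η _ _ hQ hη (IncC.incS hA).incF (IncC.incS hB).incF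
    refine h.trans (le_of_eq ?_)
    exact Ex_congr fun S _ => by rw [ind_inter]

/-- comparison of boundary conditions for the colour `e` -/
theorem prC_mono (hQ : 1 ≤ Q) (hη : Good η) (hη' : Good η')
    (h : ∀ v, v ∉ D → η v = e → η' v = e) (hA : IncC e A) : Pr Q D η A ≤ Pr Q D η' A := by
  have e1 : Pr Q D η A = Pr Q D (cf D η ∅) A := Ex_out (fun v hv => by rw [cf_out hv]) _
  have e2 : Pr Q D η' A = Pr Q D (cf D η' ∅) A := Ex_out (fun v hv => by rw [cf_out hv]) _
  rw [e1, e2]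
  have g1 : Good (cf D η ∅) := f_good.1 _ _ _ hη
  have g2 : Good (cf D η' ∅) := f_good.1 _ _ _ hη'
  cases e
  · have h1 := f_comp Q D (cf D η' ∅) (cf D η ∅) (fun ω => - A.indicator 1 ω) hQ g2 g1
      (fun v hv => ?_) (IncC.decS hA).incF
    · rw [Ex_neg, Ex_neg] at h1
      have h2 := neg_le_neg_iff.1 h1
      exact h2
    · by_cases hvD : v ∈ D
      · rw [H519.cf_in hvD] at hv; simp at hv
      · rw [cf_out hvD] at hv ⊢
        by_contra hc
        rw [Bool.not_eq_true] at hc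
        rw [h v hvD hc] at hv
        simp at hv
  · refine f_comp Q D _ _ _ hQ g1 g2 (fun v hv => ?_) (IncC.incS hA).incF
    by_cases hvD : v ∈ D
    · rw [H519.cf_in hvD] at hv; simp at hv
    · rw [cf_out hvD] at hv ⊢
      exact h v hvD hv

/-- the constant configuration of colour `e` -/
def cst (e : Bool) : Cfg := fun _ => e

theorem good_cst (e : Bool) : Good (cst e) := by
  cases e
  · exact f_good.2.1
  · exact f_good.2.2

/-- The domain is enlarged and the other squares outside get the colour `e`. -/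
theorem prC_dom (hQ : 1 ≤ Q) (hη : Good η) {D' : Finset Pt} (hD : D ⊆ D')
    (h : ∀ v ∈ D', v ∉ D → η v = !e) (hA : IncC e A) : Pr Q D η A ≤ Pr Q D' (cst e) A := by
  have hQ0 : 0 < Q := by linarith
  unfold Pr
  rw [f_markov Q D D' (cst e) _ hQ0 hD (good_cst e),
    ← Ex_const (Q := Q) (D := D') (η := cst e) hQ0 (Ex Q D η (A.indicator 1))]
  refine Ex_mono hQ0 fun S _ => ?_
  refine prC_mono hQ hη (f_good.1 _ _ _ (good_cst e)) (fun v hv h1 => ?_) hA
  by_cases hvD : v ∈ D'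
  · rw [h v hvD hv] at h1
    cases e <;> simp at h1
  · rw [cf_out hvD]; rfl

/-- positive association for the intersection of a finite family -/
theorem prC_all (hQ : 1 ≤ Q) (hη : Good η) {A : ℕ → Set Cfg} (hA : ∀ i, IncC e (A i)) {c : ℝ}
    (hc : 0 ≤ c) : ∀ n : ℕ, (∀ i < n, c ≤ Pr Q D η (A i)) →
    IncC e {ω | ∀ i < n, ω ∈ A i} ∧ c ^ n ≤ Pr Q D η {ω | ∀ i < n, ω ∈ A i} := by
  have hQ0 : 0 < Q := by linarith
  intro n
  induction n with
  | zero =>
    intro _
    refine ⟨fun _ _ _ _ i hi => absurd hi (Nat.not_lt_zero i), ?_⟩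
    have e1 : {ω : Cfg | ∀ i < 0, ω ∈ A i} = Set.univ := by
      ext ω; simp
    rw [e1, pow_zero]
    unfold Pr
    rw [Set.indicator_univ]
    exact (Ex_const hQ0 1).ge
  | succ n ih =>
    intro h
    obtain ⟨i1, i2⟩ := ih fun i hi => h i (by omega)
    have e1 : {ω : Cfg | ∀ i < n + 1, ω ∈ A i} = {ω | ∀ i < n, ω ∈ A i} ∩ A n := by
      ext ω
      simp only [Set.mem_ofPred_eq, Set.mem_inter_iff]
      constructor
      · exact fun h => ⟨fun i hi => h i (by omega), h n (by omega)⟩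
      · rintro ⟨h1, h2⟩ i hi
        rcases Nat.lt_or_ge i n with h3 | h3
        · exact h1 i h3
        · rwa [show i = n by omega]
    rw [e1]
    refine ⟨i1.inter (hA n), ?_⟩
    refine le_trans ?_ (prC_inter hQ hη i1 (hA n))
    rw [pow_succ]
    exact mul_le_mul i2 (h n (by omega)) hc (Pr_nonneg hQ0 _)

/-! ### Arms -/

/-- arm of colour `e` -/
def AC (e : Bool) (x : Pt) (r R : ℤ) : Set Cfg :=
  {ω | ∃ u v : Pt, (u.1 + u.2) % 2 = pr e ∧ nm (u - x) ≤ r ∧ R ≤ nm (v - x) ∧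
    PConn (cs e ω) (bl x R) u v}

theorem AC_true (x : Pt) (r R : ℤ) : AC true x r R = {ω | ArmPx x r R ω} := by
  ext ω
  simp only [AC, ArmPx, Set.mem_ofPred_eq, pr, if_true, Int.even_iff]
  rfl

theorem AC_false (x : Pt) (r R : ℤ) : AC false x r R = {ω | ArmDx x r R ω} := by
  ext ω
  simp only [AC, ArmDx, Set.mem_ofPred_eq, pr, Bool.false_eq_true, if_false, Int.odd_iff, cs_false]
  rfl

theorem inc_AC (e : Bool) (x : Pt) (r R : ℤ) : IncC e (AC e x r R) := by
  rintro o o' ho ⟨u, v, h1, h2, h3, h4⟩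
  exact ⟨u, v, h1, h2, h3, h4.mono (fun w hw => ho w hw) subset_rfl⟩

theorem inc_AC' (e : Bool) (x : Pt) (r R : ℤ) : IncC e (AC (!e) x r R)ᶜ := by
  have := (inc_AC (!e) x r R).compl
  rwa [Bool.not_not] at this

/-- **Arms have probability at most `1/2`** if the annulus outside of the domain has the other
colour. -/
theorem ac_half (hQ : 1 ≤ Q) (h : RSW Q) : ∃ K0 : ℤ, 1 ≤ K0 ∧ ∀ (e : Bool) (x : Pt) (r R : ℤ)
    (D : Finset Pt) (η : Cfg), 1 ≤ r → K0 * r ≤ R → Good η →
    (∀ v ∈ Bq x R, v ∉ Bq x r → v ∉ D → η v = !e) → Pr Q D η (AC e x r R) ≤ 1 / 2 := by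
  have hQ0 : 0 < Q := by linarith
  obtain ⟨α, C, hα, hC, hP, hDd⟩ := arm_fk hQ h
  obtain ⟨n, hn, hn1⟩ : ∃ n : ℕ, C * ((1 : ℝ) / n) ^ α ≤ 1 / 2 ∧ 1 ≤ n := by
    have h1 : Filter.Tendsto (fun n : ℕ => C * ((1 : ℝ) / n) ^ α) Filter.atTop (nhds 0) := by
      have h2 : Filter.Tendsto (fun n : ℕ => (1 : ℝ) / n) Filter.atTop (nhds 0) :=
        tendsto_const_div_atTop_nhds_zero_nat 1
      have h3 := (h2.rpow_const (p := α) (Or.inr hα.le)).const_mul C
      rw [Real.zero_rpow hα.ne', mul_zero] at h3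
      exact h3
    obtain ⟨n, h2, h3⟩ := ((h1.eventually (ge_mem_nhds (show (0 : ℝ) < 1 / 2 by norm_num))).and
      (Filter.eventually_ge_atTop 1)).exists
    exact ⟨n, h2, h3⟩
  refine ⟨n, by exact_mod_cast hn1, fun e x r R D η hr hR hη hout => ?_⟩
  have hr' : (1 : ℝ) ≤ r := by exact_mod_cast hr
  have hn' : (1 : ℝ) ≤ n := by exact_mod_cast hn1
  have hR' : (n : ℝ) * r ≤ R := by exact_mod_cast hR
  have hrR : r ≤ R := by
    have : (1 : ℤ) ≤ n := by exact_mod_cast hn1
    nlinarith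
  have hR0 : (0 : ℝ) < R := by nlinarith
  have hb : C * ((r : ℝ) / R) ^ α ≤ 1 / 2 := by
    refine le_trans (mul_le_mul_of_nonneg_left (Real.rpow_le_rpow (by positivity) ?_ hα.le) hC.le) hn
    rw [div_le_div_iff₀ hR0 (by linarith)]
    linarith
  have key : Pr Q (Bq x R \ Bq x r) (cst e) (AC e x r R) ≤ 1 / 2 := by
    refine le_trans ?_ hb
    cases e
    · rw [AC_false]
      have h1 := hDd x r R (Bq x R \ Bq x r) (cst false) (fun _ => 1) hr hrR (good_cst _) subset_rfl
        (fun _ => zero_le_one) fun _ _ _ => rfl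
      simp only [one_mul] at h1
      rwa [Ex_const hQ0, mul_one] at h1
    · rw [AC_true]
      have h1 := hP x r R (Bq x R \ Bq x r) (cst true) (fun _ => 1) hr hrR (good_cst _) subset_rfl
        (fun _ => zero_le_one) fun _ _ _ => rfl
      simp only [one_mul] at h1
      rwa [Ex_const hQ0, mul_one] at h1
  unfold Pr
  rw [f_markov Q (D ∩ (Bq x R \ Bq x r)) D η _ hQ0 Finset.inter_subset_left hη,
    ← Ex_const (Q := Q) (D := D) (η := η) hQ0 (1 / 2)]
  refine Ex_mono hQ0 fun S _ => ?_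
  refine le_trans (prC_dom (e := e) hQ (f_good.1 D η S hη) Finset.inter_subset_right
    (fun v hv hv' => ?_) (inc_AC e x r R)) key
  have h1 : v ∉ D := fun h => hv' (Finset.mem_inter.2 ⟨h, hv⟩)
  rw [cf_out h1]
  rw [Finset.mem_sdiff] at hv
  exact hout v hv.1 hv.2 h1

/-! ### The rectangle -/

/-- the alternative for a rectangle, horizontal crossings -/
theorem alt_H (e : Bool) {a b p q : ℤ} (hab : a ≤ b) (hpq : p ≤ q) (ω : Cfg) :
    ω ∈ Hc e a b p q ∨ ω ∈ Vc (!e) a b p q := by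
  cases e
  · -- dual horizontal or primal vertical : exchange the coordinates
    rcases hard (Prod.swap ⁻¹' (op ω)) hpq hab with ⟨u, v, h1, h2, h3, h4⟩ | ⟨u, v, h1, h2, h3, h4⟩
    · right
      have h5 : (u.swap.1 + u.swap.2) % 2 = pr (!false) := by
        simp only [Bool.not_false, pr, if_true, Prod.fst_swap, Prod.snd_swap]
        omega
      refine ⟨u.swap, v.swap, h1, h2, h5, h4.swap.mono ?_ ?_⟩
      · intro w hw
        simp only [Set.mem_preimage, Prod.swap_swap] at hw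
        exact hw
      · intro w hw
        simp only [Set.mem_preimage, mem_rect, Prod.fst_swap, Prod.snd_swap] at hw ⊢
        omega
    · left
      have h5 : (u.swap.1 + u.swap.2) % 2 = pr false := by
        simp only [pr, Bool.false_eq_true, if_false, Prod.fst_swap, Prod.snd_swap]
        omega
      refine ⟨u.swap, v.swap, h1, h2, h5, h4.swap.mono ?_ ?_⟩
      · intro w hw
        simp only [Set.mem_preimage, Set.mem_compl_iff, Prod.swap_swap] at hw
        rw [cs_false]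
        exact hw
      · intro w hw
        simp only [Set.mem_preimage, mem_rect, Prod.fst_swap, Prod.snd_swap] at hw ⊢
        omega
  · rcases hard (op ω) hab hpq with ⟨u, v, h1, h2, h3, h4⟩ | ⟨u, v, h1, h2, h3, h4⟩
    · left
      exact ⟨u, v, h1, h2, by simpa [pr] using h3, h4⟩
    · right
      refine ⟨u, v, h1, h2, by simpa [pr] using h3, ?_⟩
      rw [Bool.not_true, cs_false]
      exact h4

/-- the alternative for a rectangle, vertical crossings -/
theorem alt_V (e : Bool) {a b p q : ℤ} (hab : a ≤ b) (hpq : p ≤ q) (ω : Cfg) :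
    ω ∈ Vc e a b p q ∨ ω ∈ Hc (!e) a b p q := by
  have h := alt_H (!e) hab hpq ω
  rw [Bool.not_not] at h
  exact h.symm

/-- Without arms of the other colour around the points of the middle row there is a horizontal
crossing. -/
theorem hc_of_arms {e : Bool} {a b p q r R : ℤ} (hab : a ≤ b) (hpq : p ≤ q) (hr : 1 ≤ r)
    (hrR : r ≤ R) (hR : 2 * R ≤ q - p) {n : ℕ} (hn : b - a < (n + 1) * r) {ω : Cfg}
    (h : ∀ i < n + 1, ω ∉ AC (!e) (a + (i : ℕ) * r, (p + q) / 2) r R) : ω ∈ Hc e a b p q := by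
  rcases alt_H e hab hpq ω with h1 | ⟨s, t, hs, ht, hp, hst⟩
  · exact h1
  exfalso
  obtain ⟨y, y1, y2, y3⟩ := pconn_cut_first (fun w => w.2) row_inc hst
    (R := (p + q) / 2) (by omega) (by omega)
  have hyR := y2.right_mem.1
  rw [mem_rect] at hyR
  obtain ⟨i, hi⟩ : ∃ i : ℕ, (i : ℤ) = (y.1 - a) / r :=
    ⟨((y.1 - a) / r).toNat, Int.toNat_of_nonneg (Int.ediv_nonneg (by omega) (by omega))⟩
  have i1 : (i : ℤ) * r ≤ y.1 - a := by
    rw [hi]; exact Int.ediv_mul_le _ (by omega)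
  have i2 : y.1 - a < ((i : ℤ) + 1) * r := by
    rw [hi]; exact Int.lt_ediv_add_one_mul_self _ (by omega)
  have i3 : i < n + 1 := by
    have : (i : ℤ) * r < (n + 1) * r := by omega
    have := lt_of_mul_lt_mul_right this (by omega)
    omega
  have hy0 : nm (y - (a + i * r, (p + q) / 2)) ≤ r := by
    rw [nm_le]
    simp only [Prod.fst_sub, Prod.snd_sub]
    refine ⟨by nlinarith, by nlinarith, by omega, by omega⟩
  have ht0 : R ≤ nm (t - (a + i * r, (p + q) / 2)) := by
    rw [le_nm]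
    simp only [Prod.fst_sub, Prod.snd_sub]
    omega
  obtain ⟨z, z1, z2, -⟩ := first_exit (b := (a + i * r, (p + q) / 2)) (R := R) y3 (by omega) ht0
  refine h i i3 ⟨y, z, ?_, hy0, by omega, z2.mono subset_rfl Set.inter_subset_right⟩
  rw [← y2.parity, hp]

/-- the same for vertical crossings -/
theorem vc_of_arms {e : Bool} {a b p q r R : ℤ} (hab : a ≤ b) (hpq : p ≤ q) (hr : 1 ≤ r)
    (hrR : r ≤ R) (hR : 2 * R ≤ b - a) {n : ℕ} (hn : q - p < (n + 1) * r) {ω : Cfg}
    (h : ∀ i < n + 1, ω ∉ AC (!e) ((a + b) / 2, p + (i : ℕ) * r) r R) : ω ∈ Vc e a b p q := by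
  rcases alt_V e hab hpq ω with h1 | ⟨s, t, hs, ht, hp, hst⟩
  · exact h1
  exfalso
  obtain ⟨y, y1, y2, y3⟩ := pconn_cut_first (fun w => w.1) col_inc hst
    (R := (a + b) / 2) (by omega) (by omega)
  have hyR := y2.right_mem.1
  rw [mem_rect] at hyR
  obtain ⟨i, hi⟩ : ∃ i : ℕ, (i : ℤ) = (y.2 - p) / r :=
    ⟨((y.2 - p) / r).toNat, Int.toNat_of_nonneg (Int.ediv_nonneg (by omega) (by omega))⟩
  have i1 : (i : ℤ) * r ≤ y.2 - p := by
    rw [hi]; exact Int.ediv_mul_le _ (by omega)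
  have i2 : y.2 - p < ((i : ℤ) + 1) * r := by
    rw [hi]; exact Int.lt_ediv_add_one_mul_self _ (by omega)
  have i3 : i < n + 1 := by
    have : (i : ℤ) * r < (n + 1) * r := by omega
    have := lt_of_mul_lt_mul_right this (by omega)
    omega
  have hy0 : nm (y - ((a + b) / 2, p + i * r)) ≤ r := by
    rw [nm_le]
    simp only [Prod.fst_sub, Prod.snd_sub]
    refine ⟨by omega, by omega, by nlinarith, by nlinarith⟩
  have ht0 : R ≤ nm (t - ((a + b) / 2, p + i * r)) := by
    rw [le_nm]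
    simp only [Prod.fst_sub, Prod.snd_sub]
    omega
  obtain ⟨z, z1, z2, -⟩ := first_exit (b := ((a + b) / 2, p + i * r)) (R := R) y3 (by omega) ht0
  refine h i i3 ⟨y, z, ?_, hy0, by omega, z2.mono subset_rfl Set.inter_subset_right⟩
  rw [← y2.parity, hp]

theorem numQ {K0 : ℤ} (hK0 : 1 ≤ K0) (K : ℕ) {w s : ℤ} (hs : 2 * K0 ≤ s) (hw : 0 ≤ w)
    (hws : w ≤ K * s) : ∃ (r : ℤ) (n : ℕ), 1 ≤ r ∧ r ≤ K0 * r ∧ 2 * (K0 * r) ≤ s ∧
      w < (n + 1) * r ∧ (n : ℤ) * r ≤ w ∧ n + 1 ≤ 4 * K * K0.toNat + 1 := by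
  obtain ⟨r, hr⟩ : ∃ r, r = s / (2 * K0) := ⟨_, rfl⟩
  have r1 : 1 ≤ r := by
    rw [hr, Int.le_ediv_iff_mul_le (by omega)]
    omega
  have r2 : r * (2 * K0) ≤ s := by
    rw [hr]; exact Int.ediv_mul_le s (by omega)
  have r3 : s < (r + 1) * (2 * K0) := by
    rw [hr]; exact Int.lt_ediv_add_one_mul_self s (by omega)
  have n1 : w < (w / r + 1) * r := Int.lt_ediv_add_one_mul_self w (by omega)
  have n2 : w / r * r ≤ w := Int.ediv_mul_le w (by omega)
  have n0 : 0 ≤ w / r := Int.ediv_nonneg hw (by omega)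
  refine ⟨r, (w / r).toNat, r1, by nlinarith, by nlinarith, ?_, ?_, ?_⟩
  · rw [Int.toNat_of_nonneg n0]; exact n1
  · rw [Int.toNat_of_nonneg n0]; exact n2
  · have hT : ((4 * K * K0.toNat + 1 : ℕ) : ℤ) = 4 * K * K0 + 1 := by
      push_cast
      rw [Int.toNat_of_nonneg (by omega)]
    have : (((w / r).toNat + 1 : ℕ) : ℤ) ≤ ((4 * K * K0.toNat + 1 : ℕ) : ℤ) := by
      rw [hT]
      push_cast
      rw [Int.toNat_of_nonneg n0]
      have hK : (0 : ℤ) ≤ K := by positivity
      have h1 : s ≤ 4 * K0 * r := by nlinarith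
      have h2 : w / r * r ≤ 4 * K * K0 * r := by nlinarith
      have h3 : w / r ≤ 4 * K * K0 := le_of_mul_le_mul_right h2 (by omega)
      omega
    exact_mod_cast this

/-- **Crossings of rectangles.** Lower bounds for the crossings by the colour `e`; the squares near
the rectangle outside of the domain have the colour `e`. -/
theorem rs_fk (hQ : 1 ≤ Q) (h : RSW Q) (K : ℕ) : ∃ (c : ℝ) (s0 : ℤ), 0 < c ∧ c ≤ 1 ∧ 1 ≤ s0 ∧
    ∀ (e : Bool) (a b p q : ℤ) (D : Finset Pt) (η : Cfg), Good η → a ≤ b → p ≤ q →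
    (s0 ≤ q - p → b - a ≤ K * (q - p) →
      (∀ v : Pt, 2 * a - (q - p) ≤ 2 * v.1 → 2 * v.1 < 2 * b + (q - p) → p ≤ v.2 → v.2 < q →
        v ∉ D → η v = e) → c ≤ Pr Q D η (Hc e a b p q)) ∧
    (s0 ≤ b - a → q - p ≤ K * (b - a) →
      (∀ v : Pt, 2 * p - (b - a) ≤ 2 * v.2 → 2 * v.2 < 2 * q + (b - a) → a ≤ v.1 → v.1 < b →
        v ∉ D → η v = e) → c ≤ Pr Q D η (Vc e a b p q)) := by
  have hQ0 : 0 < Q := by linarith
  obtain ⟨K0, hK0, hac⟩ := ac_half hQ h
  refine ⟨(1 / 2) ^ (4 * K * K0.toNat + 1), 2 * K0, by positivity, pow_le_one₀ (by norm_num)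
    (by norm_num), by omega, fun e a b p q D η hη hab hpq => ⟨fun hs hw hout => ?_,
    fun hs hw hout => ?_⟩⟩
  · obtain ⟨r, n, r1, r2, r3, n1, n2, n3⟩ := numQ hK0 K hs (by omega) hw
    have key := (prC_all (e := e) (Q := Q) (D := D) hQ hη (A := fun i =>
      (AC (!e) (a + (i : ℕ) * r, (p + q) / 2) r (K0 * r))ᶜ) (fun i => inc_AC' e _ _ _)
      (c := 1 / 2) (by norm_num) (n + 1) ?_).2
    · refine (pow_le_pow_of_le_one (by norm_num) (by norm_num) n3).trans (key.trans
        (Pr_mono hQ0 fun ω hω => ?_))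
      exact hc_of_arms hab hpq r1 r2 (by omega) (by omega) fun i hi => hω i hi
    · intro i hi
      rw [Pr_compl hQ0]
      have h1 := hac (!e) (a + (i : ℕ) * r, (p + q) / 2) r (K0 * r) D η r1 le_rfl hη ?_
      · linarith
      · intro v hv _ hvD
        rw [Bool.not_not]
        rw [H167.Q.mem_Bq] at hv
        dsimp only at hv
        have h2 : (i : ℤ) * r ≤ n * r := mul_le_mul_of_nonneg_right (by exact_mod_cast (by omega))
          (by omega)
        have h3 : 0 ≤ (i : ℤ) * r := by positivity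
        exact hout v (by omega) (by omega) (by omega) (by omega) hvD
  · obtain ⟨r, n, r1, r2, r3, n1, n2, n3⟩ := numQ hK0 K hs (by omega) hw
    have key := (prC_all (e := e) (Q := Q) (D := D) hQ hη (A := fun i =>
      (AC (!e) ((a + b) / 2, p + (i : ℕ) * r) r (K0 * r))ᶜ) (fun i => inc_AC' e _ _ _)
      (c := 1 / 2) (by norm_num) (n + 1) ?_).2
    · refine (pow_le_pow_of_le_one (by norm_num) (by norm_num) n3).trans (key.trans
        (Pr_mono hQ0 fun ω hω => ?_))
      exact vc_of_arms hab hpq r1 r2 (by omega) (by omega) fun i hi => hω i hi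
    · intro i hi
      rw [Pr_compl hQ0]
      have h1 := hac (!e) ((a + b) / 2, p + (i : ℕ) * r) r (K0 * r) D η r1 le_rfl hη ?_
      · linarith
      · intro v hv _ hvD
        rw [Bool.not_not]
        rw [H167.Q.mem_Bq] at hv
        dsimp only at hv
        have h2 : (i : ℤ) * r ≤ n * r := mul_le_mul_of_nonneg_right (by exact_mod_cast (by omega))
          (by omega)
        have h3 : 0 ≤ (i : ℤ) * r := by positivity
        exact hout v (by omega) (by omega) (by omega) (by omega) hvD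

/-! ### Combination -/

/-- positive association of five events -/
theorem fkg5Q (hQ : 1 ≤ Q) (hη : Good η) {A1 A2 A3 A4 A5 : Set Cfg} {k : ℝ} (hk : 0 ≤ k)
    (i1 : IncC e A1) (i2 : IncC e A2) (i3 : IncC e A3) (i4 : IncC e A4) (i5 : IncC e A5)
    (h1 : k ≤ Pr Q D η A1) (h2 : k ≤ Pr Q D η A2) (h3 : k ≤ Pr Q D η A3) (h4 : k ≤ Pr Q D η A4)
    (h5 : k ≤ Pr Q D η A5) : k ^ 5 ≤ Pr Q D η (A1 ∩ (A2 ∩ (A3 ∩ (A4 ∩ A5)))) := by
  have f4 : k ^ 2 ≤ Pr Q D η (A4 ∩ A5) := by
    refine le_trans ?_ (prC_inter hQ hη i4 i5)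
    rw [sq]
    exact mul_le_mul h4 h5 hk (hk.trans h4)
  have f3 : k ^ 3 ≤ Pr Q D η (A3 ∩ (A4 ∩ A5)) := by
    refine le_trans ?_ (prC_inter hQ hη i3 (i4.inter i5))
    rw [pow_succ']
    exact mul_le_mul h3 f4 (by positivity) (hk.trans h3)
  have f2 : k ^ 4 ≤ Pr Q D η (A2 ∩ (A3 ∩ (A4 ∩ A5))) := by
    refine le_trans ?_ (prC_inter hQ hη i2 (i3.inter (i4.inter i5)))
    rw [pow_succ']
    exact mul_le_mul h2 f3 (by positivity) (hk.trans h2)
  refine le_trans ?_ (prC_inter hQ hη i1 (i2.inter (i3.inter (i4.inter i5))))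
  rw [pow_succ']
  exact mul_le_mul h1 f2 (by positivity) (hk.trans h1)

/-- A lower bound which is uniform in the configuration off `A` holds with a weight which does not
depend on the squares of `A`. -/
theorem ex_ge (hQ : 1 ≤ Q) (hη : Good η) {A : Finset Pt} (hA : A ⊆ D) {c : ℝ} {E : Set Cfg}
    {G : Cfg → ℝ} (hG : Ind A G) (hG0 : ∀ ω, 0 ≤ G ω)
    (h : ∀ ω, Good ω → (∀ v, v ∉ D → ω v = η v) → c ≤ Pr Q A ω E) :
    c * Ex Q D η G ≤ Ex Q D η (fun ω => G ω * E.indicator 1 ω) := by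
  have hQ0 : 0 < Q := by linarith
  rw [markov f_markov hQ0 hA hη hG, ← Ex_mul_left]
  refine Ex_mono hQ0 fun S _ => ?_
  rw [mul_comm c]
  exact mul_le_mul_of_nonneg_left (h _ (f_good.1 D η S hη) fun v hv => cf_out hv) (hG0 _)

end Vale.Agent.P167.H704.Q
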