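import Vale.Agent.P167.H318.GT
import Vale.Agent.P167.H704.Q.Bank

/-!
# P167, general `q`, block Q-NSYM: links to the two banks of the tip

`T`: squares of a tube around the tip (fresh or visited by the explored strand, not in the column below
the tip). `CU e S T u`: the fresh squares of `T` at which the potential has the value of the bank of
colour `e` at the tip. `link`: the law in `CU` dominates (for the colour `e`) the law in `T` with the
other colour outside, if the squares of `T` outside of `CU` get the colour `e`. `contact`: a path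
which starts on this side and ends elsewhere meets the bank through squares of `CU`.
-/

namespace Vale.Agent.P167.H704.Q

open Finset Vale.Agent.P145.FB Vale.Agent.P153 Vale.Agent.P153.Topo Vale.Agent.P167
  Vale.Agent.P167.H632 Vale.Agent.P167.H871 Vale.Agent.P167.H704 Vale.Agent.P167.FK
  Vale.Agent.P167.FKA
open Vale.Agent.P167.H318 (St Pt0 Cl0 FlatAt cnt opq st hdv_opq ls_opq rs_opq even_corner odd_corner
  col col_ne hs_notF cnt_pos CoConn)
open Relation

/-- the bank of colour `e`: left (primal) or right (dual) site -/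
def bk (e : Bool) (a : Ed) : Pt := if e then ls a else rs a

variable {S : St} {x h : ℤ} {u : Pt → ℤ} {e : Bool} {T : Finset Pt} {ω : Cfg}

theorem bk_par (e : Bool) (a : Ed) : ((bk e a).1 + (bk e a).2) % 2 = pr e := by
  cases e
  · exact rs_par a
  · exact ls_par a

/-- the opposite corner -/
def oc (t s : Pt) : Pt := (2 * t.1 + 1 - s.1, 2 * t.2 + 1 - s.2)

theorem step_oc {t s : Pt} (h : Cor t s) : PStep {t} s (oc t s) := by
  obtain ⟨h1, h2⟩ := h
  refine ⟨by simp only [oc]; omega, by simp only [oc]; omega, ?_⟩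
  rw [Set.mem_singleton_iff]
  refine Prod.ext ?_ ?_ <;> simp only [oc] <;> omega

/-- a corner of a visited square with the value of the bank is on the bank -/
theorem bank_corner (hu : Pt0 S x h u)
    (hp : ∀ i ≤ S.m, u (ls (st S.e0 S.z i)) = u (rs (st S.e0 S.z i)) + 1) {t s : Pt}
    (ht : t ∈ S.Hs) (hc : ¬ Cl0 x h t) (hs : Cor t s) (he : (s.1 + s.2) % 2 = pr e)
    (us : u s = u (bk e S.tip)) : ∃ i ≤ S.m, s = bk e (st S.e0 S.z i) := by
  have htD := (hs_notF ht).2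
  obtain ⟨i, hi, hiv⟩ := ht
  have hst := step_oc hs
  rw [← hiv] at hst
  have hch := Pt0.chain hp
  have h7 : u (ls S.tip) = u (rs S.tip) + 1 := hp S.m le_rfl
  cases e
  · have hodd : Odd (s.1 + s.2) := Int.odd_iff.2 he
    rcases odd_corner hst hodd with h4 | h4
    · exact ⟨i, hi.le, h4⟩
    · cases hb : S.z (hdv (st S.e0 S.z i)) with
      | false =>
        refine ⟨i + 1, hi, ?_⟩
        rw [H318.Bs.st_succ]
        show s = rs (nx S.z (st S.e0 S.z i))
        rw [rs_opq hb, ← h4]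
      | true =>
        by_cases hc0 : cnt S.e0 S.z S.m (opq (st S.e0 S.z i)) = 0
        · exfalso
          have h5 := hu (opq (st S.e0 S.z i)) (Or.inl (by rw [hdv_opq, hiv]; exact htD))
          have h6 : col x h (opq (st S.e0 S.z i)) = 0 := by
            by_contra hne
            exact hc (col_ne hne (Or.inl (by rw [hdv_opq, hiv])))
          have us' : u s = u (rs S.tip) := us
          rw [hc0, h6, ← h4, us', ← ls_opq hb, ← H318.Bs.st_succ, (hch (i + 1) hi).1] at h5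
          linarith
        · obtain ⟨j, hj, hj'⟩ := cnt_pos hc0
          exact ⟨j, hj, by rw [hj']; exact h4⟩
  · have heven : Even (s.1 + s.2) := Int.even_iff.2 he
    rcases even_corner hst heven with h4 | h4
    · exact ⟨i, hi.le, h4⟩
    · cases hb : S.z (hdv (st S.e0 S.z i)) with
      | true =>
        refine ⟨i + 1, hi, ?_⟩
        rw [H318.Bs.st_succ]
        show s = ls (nx S.z (st S.e0 S.z i))
        rw [ls_opq hb, ← h4]
      | false =>
        by_cases hc0 : cnt S.e0 S.z S.m (opq (st S.e0 S.z i)) = 0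
        · exfalso
          have h5 := hu (opq (st S.e0 S.z i)) (Or.inl (by rw [hdv_opq, hiv]; exact htD))
          have h6 : col x h (opq (st S.e0 S.z i)) = 0 := by
            by_contra hne
            exact hc (col_ne hne (Or.inl (by rw [hdv_opq, hiv])))
          have us' : u s = u (ls S.tip) := us
          rw [hc0, h6, ← h4, us', ← rs_opq hb, ← H318.Bs.st_succ, (hch (i + 1) hi).2] at h5
          linarith
        · obtain ⟨j, hj, hj'⟩ := cnt_pos hc0
          exact ⟨j, hj, by rw [hj']; exact h4⟩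

theorem rtg_symm {F : Set Pt} {a b : Pt} (h : ReflTransGen (PStep F) a b) :
    ReflTransGen (PStep F) b a := by
  induction h with
  | refl => exact ReflTransGen.refl
  | tail _ h ih => exact ih.head h.symm

/-- the bank is connected through visited squares -/
theorem bank_chain {C : Finset Pt} (hC : C ⊆ S.F) (hω : ∀ v, v ∉ S.F → ω v = S.z v) (e : Bool) :
    ∀ i ≤ S.m, ReflTransGen (PStep {v | ω v = e ∧ v ∉ C}) (bk e (st S.e0 S.z 0))
      (bk e (st S.e0 S.z i)) := by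
  intro i
  induction i with
  | zero => exact fun _ => ReflTransGen.refl
  | succ i ih =>
    intro hi
    have h1 := ih (by omega)
    have hH : hdv (st S.e0 S.z i) ∈ S.Hs := ⟨i, hi, rfl⟩
    have hF := (hs_notF hH).1
    have hn := H166.nx_step S.z (st S.e0 S.z i)
    rw [H318.Bs.st_succ]
    have hz := hω _ hF
    cases e
    · cases hb : S.z (hdv (st S.e0 S.z i)) with
      | true =>
        show ReflTransGen _ _ (rs (nx S.z (st S.e0 S.z i)))
        rw [(hn.1 hb).2]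
        exact h1
      | false =>
        obtain ⟨s1, s2, s3⟩ := (hn.2 hb).2
        rw [Set.mem_singleton_iff] at s3
        have hst : PStep {v | ω v = false ∧ v ∉ C} (rs (st S.e0 S.z i))
            (rs (nx S.z (st S.e0 S.z i))) := by
          refine ⟨s1, s2, ?_⟩
          rw [s3]
          exact ⟨by rw [hz, hb], fun h => hF (hC h)⟩
        exact h1.tail hst
    · cases hb : S.z (hdv (st S.e0 S.z i)) with
      | false =>
        show ReflTransGen _ _ (ls (nx S.z (st S.e0 S.z i)))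
        rw [(hn.2 hb).1]
        exact h1
      | true =>
        obtain ⟨s1, s2, s3⟩ := (hn.1 hb).1
        rw [Set.mem_singleton_iff] at s3
        have hst : PStep {v | ω v = true ∧ v ∉ C} (ls (st S.e0 S.z i))
            (ls (nx S.z (st S.e0 S.z i))) := by
          refine ⟨s1, s2, ?_⟩
          rw [s3]
          exact ⟨by rw [hz, hb], fun h => hF (hC h)⟩
        exact h1.tail hst

open Classical in
/-- the fresh squares of the tube on the side of the bank of colour `e` -/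
noncomputable def CU (e : Bool) (S : St) (T : Finset Pt) (u : Pt → ℤ) : Finset Pt :=
  T.filter fun v => v ∈ S.F ∧ u v = u (bk e S.tip)

theorem mem_CU {v : Pt} : v ∈ CU e S T u ↔ v ∈ T ∧ v ∈ S.F ∧ u v = u (bk e S.tip) := by
  unfold CU
  rw [Finset.mem_filter]

theorem CU_sub : CU e S T u ⊆ T := fun _ hv => (mem_CU.1 hv).1

theorem CU_fresh : CU e S T u ⊆ S.F := fun _ hv => (mem_CU.1 hv).2.1

/-- the two sides are disjoint -/
theorem CU_disj {T T' : Finset Pt}
    (hp : ∀ i ≤ S.m, u (ls (st S.e0 S.z i)) = u (rs (st S.e0 S.z i)) + 1) :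
    Disjoint (CU true S T u) (CU false S T' u) := by
  rw [Finset.disjoint_left]
  intro v hv hv'
  have h1 : u v = u (ls S.tip) := (mem_CU.1 hv).2.2
  have h2 : u v = u (rs S.tip) := (mem_CU.1 hv').2.2
  have h3 : u (ls S.tip) = u (rs S.tip) + 1 := hp S.m le_rfl
  omega

theorem flat_cor {v s : Pt} (h : FlatAt u v) (hs : Cor v s) : u s = u v := by
  obtain ⟨h1, h2, h3⟩ := h
  obtain ⟨c1, c2⟩ := hs
  obtain ⟨a, b⟩ := s
  obtain ⟨a', b'⟩ := v
  dsimp only at *
  rcases c1 with rfl | rfl <;> rcases c2 with rfl | rfl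
  · rfl
  · exact h2
  · exact h1
  · exact h3

/-- conditions for the tube -/
def TOk (S : St) (x h : ℤ) (T : Finset Pt) : Prop :=
  ∀ v ∈ T, v ∈ S.D ∧ (v ∈ S.F ∨ v ∈ S.Hs) ∧ ¬ Cl0 x h v

/-- a corner of the tube with the value of the bank: fresh squares are in `CU`, otherwise it is on
the bank -/
theorem cor_cases (hu : Pt0 S x h u) (hS : S.Ok) (hh : 1 ≤ h) (htip : hdv S.tip = (x, h - 1))
    (hp : ∀ i ≤ S.m, u (ls (st S.e0 S.z i)) = u (rs (st S.e0 S.z i)) + 1) (hT : TOk S x h T)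
    {v s : Pt} (hv : v ∈ T) (hs : Cor v s) (he : (s.1 + s.2) % 2 = pr e)
    (us : u s = u (bk e S.tip)) : v ∈ CU e S T u ∨ ∃ i ≤ S.m, s = bk e (st S.e0 S.z i) := by
  obtain ⟨k1, k2, k3⟩ := hT v hv
  by_cases hF : v ∈ S.F
  · have hH : v ∉ S.Hs := fun h => (hs_notF h).1 hF
    have hfl := hu.flat hS hh htip k1 hH k3
    exact Or.inl (mem_CU.2 ⟨hv, hF, by rw [← flat_cor hfl hs, us]⟩)
  · exact Or.inr (bank_corner hu hp (k2.resolve_left hF) k3 hs he us)

theorem cu_val (hu : Pt0 S x h u) (hS : S.Ok) (hh : 1 ≤ h) (htip : hdv S.tip = (x, h - 1))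
    (hT : TOk S x h T) {v s : Pt} (hv : v ∈ CU e S T u) (hs : Cor v s) :
    u s = u (bk e S.tip) := by
  obtain ⟨h1, h2, h3⟩ := mem_CU.1 hv
  obtain ⟨k1, k2, k3⟩ := hT v h1
  have hfl := hu.flat hS hh htip k1 (fun h => (hs_notF h).1 h2) k3
  rw [flat_cor hfl hs, h3]

/-- the shared corners are joined -/
theorem wd_CU (hu : Pt0 S x h u) (hS : S.Ok) (hh : 1 ≤ h) (htip : hdv S.tip = (x, h - 1))
    (hp : ∀ i ≤ S.m, u (ls (st S.e0 S.z i)) = u (rs (st S.e0 S.z i)) + 1) (hT : TOk S x h T)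
    (hω : ∀ v, v ∉ S.F → ω v = S.z v) : Wd e T (CU e S T u) ω := by
  have key : ∀ s : Pt, (s.1 + s.2) % 2 = pr e → Shr T (CU e S T u) s →
      ∃ i ≤ S.m, s = bk e (st S.e0 S.z i) := by
    rintro s hs ⟨⟨c, hc, hcs⟩, t, ht, htC, hts⟩
    have h1 := cu_val hu hS hh htip hT hc hcs
    exact (cor_cases hu hS hh htip hp hT ht hts hs h1).resolve_left htC
  intro s s' hs hs' h1 h2
  obtain ⟨i, hi, rfl⟩ := key s hs h1
  obtain ⟨j, hj, rfl⟩ := key s' hs' h2
  have c1 := bank_chain (CU_fresh (e := e) (S := S) (T := T) (u := u)) hω e i hi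
  have c2 := bank_chain (CU_fresh (e := e) (S := S) (T := T) (u := u)) hω e j hj
  refine ReflTransGen.trans ?_ c2
  exact rtg_symm c1

/-- **The law at the bank.** -/
theorem link {Q : ℝ} (hQ : 1 ≤ Q) (hu : Pt0 S x h u) (hS : S.Ok) (hh : 1 ≤ h)
    (htip : hdv S.tip = (x, h - 1))
    (hp : ∀ i ≤ S.m, u (ls (st S.e0 S.z i)) = u (rs (st S.e0 S.z i)) + 1) (hT : TOk S x h T)
    (hg : Good ω) (hω : ∀ v, v ∉ S.F → ω v = S.z v) {A : Set Cfg} (hA : IncC e A) :
    Pr Q T (cst (!e)) A ≤ Pr Q (CU e S T u) ω {ω' | fil e T (CU e S T u) ω' ∈ A} :=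
  bank hQ hg CU_sub (wd_CU hu hS hh htip hp hT hω) hA

/-- **Contact**: a path of the filled configuration from the side of the bank to elsewhere meets the
bank through fresh squares of this side. -/
theorem contact (hu : Pt0 S x h u) (hS : S.Ok) (hh : 1 ≤ h) (htip : hdv S.tip = (x, h - 1))
    (hp : ∀ i ≤ S.m, u (ls (st S.e0 S.z i)) = u (rs (st S.e0 S.z i)) + 1) (hT : TOk S x h T)
    {Rg : Set Pt} {a c : Pt} (ha : (a.1 + a.2) % 2 = pr e)
    (hac : PConn (cs e (fil e T (CU e S T u) ω)) Rg a c) (ua : u a = u (bk e S.tip))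
    (uc : u c ≠ u (bk e S.tip)) :
    ∃ i ≤ S.m, PConn (cs e ω ∩ ↑(CU e S T u)) Rg a (bk e (st S.e0 S.z i)) := by
  obtain ⟨h1, h2⟩ := hac
  by_contra hcon
  have key : PConn (cs e ω ∩ ↑(CU e S T u)) Rg a c ∧ (c.1 + c.2) % 2 = pr e ∧
      u c = u (bk e S.tip) := by
    clear uc
    induction h2 with
    | refl => exact ⟨PConn.refl h1, ha, ua⟩
    | @tail s s' _ hss ih =>
      obtain ⟨i1, i2, i3⟩ := ih
      have hst := hss.1
      have hcor := cor_of_step hst
      have hm : fil e T (CU e S T u) ω (min s.1 s'.1, min s.2 s'.2) = e := hst.2.2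
      have hmT : (min s.1 s'.1, min s.2 s'.2) ∈ T := by
        by_contra hc
        have hc' : (min s.1 s'.1, min s.2 s'.2) ∉ CU e S T u := fun h => hc (CU_sub h)
        simp only [fil, hc, hc', if_false] at hm
        cases e <;> simp at hm
      rcases cor_cases hu hS hh htip hp hT hmT hcor.1 i2 i3 with h3 | ⟨i, hi, h3⟩
      · rw [fil_in h3] at hm
        have hpar : (s'.1 + s'.2) % 2 = pr e := by
          have h4 := hst.1
          have h5 := hst.2.1
          omega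
        exact ⟨i1.tail ⟨hst.1, hst.2.1, hm, h3⟩ hss.2, hpar, cu_val hu hS hh htip hT h3 hcor.2⟩
      · exact absurd ⟨i, hi, by rw [← h3]; exact i1⟩ hcon
  exact uc key.2.2

/-! ### The arch -/

/-- the squares of the arch: the box around the tip without the block below the tip -/
noncomputable def TT (x l : ℤ) : Finset Pt :=
  (rq (x - 4 * l) (x + 4 * l) 0 (8 * l)).filter fun v =>
    v.1 < x + 4 * l ∧ v.2 < 8 * l ∧ (5 * l ≤ v.2 ∨ v.1 < x - l ∨ x + l ≤ v.1)

theorem mem_TT {x l : ℤ} {v : Pt} : v ∈ TT x l ↔ x - 4 * l ≤ v.1 ∧ v.1 < x + 4 * l ∧ 0 ≤ v.2 ∧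
    v.2 < 8 * l ∧ (5 * l ≤ v.2 ∨ v.1 < x - l ∨ x + l ≤ v.1) := by
  rw [TT, Finset.mem_filter, mem_rq]
  omega

/-- the column of the leg of colour `e`: east for the primal colour -/
def lg (e : Bool) (x l : ℤ) : ℤ := if e then x + 2 * l else x - 3 * l

/-- the crossings of the arch -/
def AR (e : Bool) (x l y : ℤ) : Set Cfg :=
  Vc e (lg e x l) (lg e x l + l) y (7 * l) ∩ (Hc e (x - 3 * l) (x + 3 * l) (6 * l) (7 * l) ∩
    Vc e (lg (!e) x l) (lg (!e) x l + l) (3 * l) (7 * l))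

theorem inc_AR (e : Bool) (x l y : ℤ) : IncC e (AR e x l y) :=
  (inc_Vc _ _ _ _ _).inter ((inc_Hc _ _ _ _ _).inter (inc_Vc _ _ _ _ _))

theorem ar_ge {Q : ℝ} (hQ : 1 ≤ Q) (h : RSW Q) : ∃ (c : ℝ) (l0 : ℤ), 0 < c ∧ c ≤ 1 ∧ 1 ≤ l0 ∧
    ∀ (e : Bool) (x l y : ℤ), l0 ≤ l → l ≤ y → y ≤ 3 * l →
      c ≤ Pr Q (TT x l) (cst (!e)) (AR e x l y) := by
  have hQ0 : 0 < Q := by linarith
  obtain ⟨c, s0, hc, hc1, hs0, h⟩ := rs_fk hQ h 6
  refine ⟨c * (c * c), s0, by positivity, by nlinarith [mul_pos hc hc], hs0,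
    fun e x l y hl hy hy' => ?_⟩
  have g := good_cst (!e)
  have hlg : ∀ e, lg e x l = x + 2 * l ∨ lg e x l = x - 3 * l := by
    intro e
    cases e
    · exact Or.inr rfl
    · exact Or.inl rfl
  have v1 : ∀ (e' : Bool) (y' : ℤ), l ≤ y' → y' ≤ 3 * l →
      c ≤ Pr Q (TT x l) (cst (!e)) (Vc e (lg e' x l) (lg e' x l + l) y' (7 * l)) := by
    intro e' y' h1 h2
    refine (h e _ _ _ _ _ _ g (by omega) (by omega)).2 (by omega) (by push_cast; omega)
      fun v a1 a2 a3 a4 a5 => absurd ?_ a5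
    rw [mem_TT]
    rcases hlg e' with h3 | h3 <;> rw [h3] at a1 a2 a3 a4 <;> omega
  have v2 : c ≤ Pr Q (TT x l) (cst (!e)) (Hc e (x - 3 * l) (x + 3 * l) (6 * l) (7 * l)) := by
    refine (h e _ _ _ _ _ _ g (by omega) (by omega)).1 (by omega) (by push_cast; omega)
      fun v a1 a2 a3 a4 a5 => absurd ?_ a5
    rw [mem_TT]
    omega
  refine le_trans ?_ (prC_inter hQ g (inc_Vc _ _ _ _ _) ((inc_Hc _ _ _ _ _).inter
    (inc_Vc _ _ _ _ _)))
  refine mul_le_mul (v1 e y hy hy') (le_trans ?_ (prC_inter hQ g (inc_Hc _ _ _ _ _)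
    (inc_Vc _ _ _ _ _))) (by positivity) (Pr_nonneg hQ0 _)
  exact mul_le_mul v2 (v1 (!e) (3 * l) (by omega) le_rfl) hc.le (Pr_nonneg hQ0 _)

/-- the link: a path of colour `e` through squares of `C` which crosses the lower part of the leg and
continues to the bank -/
def LK (e : Bool) (S : St) (C : Finset Pt) (x l y : ℤ) : Set Cfg :=
  {ω | ∃ a b : Pt, a.2 = y ∧ b.2 = 4 * l ∧ (a.1 + a.2) % 2 = pr e ∧
    PConn (cs e ω ∩ ↑C) (Rect (lg e x l) (lg e x l + l) y (4 * l)) a b ∧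
    ∃ i ≤ S.m, PConn (cs e ω ∩ ↑C) (H318.Cs x l) a (bk e (st S.e0 S.z i))}

theorem inc_LK (e : Bool) (S : St) (C : Finset Pt) (x l y : ℤ) : IncC e (LK e S C x l y) := by
  rintro o o' ho ⟨a, b, h1, h2, h3, h4, i, hi, h5⟩
  have hs : cs e o ∩ ↑C ⊆ cs e o' ∩ ↑C := fun v hv => ⟨ho v hv.1, hv.2⟩
  exact ⟨a, b, h1, h2, h3, h4.mono hs subset_rfl, i, hi, h5.mono hs subset_rfl⟩

theorem loc_LK (e : Bool) (S : St) (C : Finset Pt) (x l y : ℤ) :
    Loc C ((LK e S C x l y).indicator (1 : Cfg → ℝ)) := by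
  have key : ∀ o o' : Cfg, (∀ v ∈ C, o v = o' v) → o ∈ LK e S C x l y → o' ∈ LK e S C x l y := by
    rintro o o' ho ⟨a, b, h1, h2, h3, h4, i, hi, h5⟩
    have hs : cs e o ∩ ↑C ⊆ cs e o' ∩ ↑C := fun v hv => ⟨by
      show o' v = e
      rw [← ho v hv.2]
      exact hv.1, hv.2⟩
    exact ⟨a, b, h1, h2, h3, h4.mono hs subset_rfl, i, hi, h5.mono hs subset_rfl⟩
  intro o o' h
  by_cases h1 : o ∈ LK e S C x l y
  · rw [Set.indicator_of_mem h1, Set.indicator_of_mem (key o o' h h1)]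
    rfl
  · rw [Set.indicator_of_notMem h1, Set.indicator_of_notMem fun h2 =>
      h1 (key o' o (fun v hv => (h v hv).symm) h2)]

section

variable {v w l H : ℤ} {U : Pt → ℤ}

theorem tb_hp (hB : H318.TB S v w (4 * l) H x) (hl : 1 ≤ l) (hx1 : v - w ≤ x - 8 * l)
    (hx2 : x + 8 * l ≤ v + w) (hU : Pt0 S x (4 * l) U) :
    ∀ i ≤ S.m, U (ls (st S.e0 S.z i)) = U (rs (st S.e0 S.z i)) + 1 := by
  have hx0 : (x, (-1 : ℤ)) ∉ S.D := hB.flat.not x (by omega) (by omega)
  have htipLo : ((x, 4 * l - 1) : ℤ × ℤ) ∈ H318.Lo v w (4 * l) :=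
    ⟨by dsimp only; omega, by dsimp only; omega, by dsimp only; omega, by dsimp only; omega⟩
  intro i hi
  refine hU.past hB.toOk hB.tip hx0 (fun y h1 h2 => hB.fresh _ ?_) ?_ hi
  · exact ⟨by dsimp only; omega, by dsimp only; omega, h1, by dsimp only; omega⟩
  · rw [hB.tip_hdv]
    exact hB.flat.mem _ htipLo

theorem tb_tok (hB : H318.TB S v w (4 * l) H x) (hl : 1 ≤ l) (hH : 8 * l ≤ H)
    (hx1 : v - w ≤ x - 8 * l) (hx2 : x + 8 * l ≤ v + w) : TOk S x (4 * l) (TT x l) := by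
  intro q hq
  rw [mem_TT] at hq
  have hLo : q ∈ H318.Lo v w H := ⟨by omega, by omega, by omega, by omega⟩
  refine ⟨hB.flat'.mem _ hLo, hB.po _ hLo, ?_⟩
  rintro ⟨c1, c2, c3⟩
  omega

/-- the value at the leg -/
theorem leg_val (hB : H318.TB S v w (4 * l) H x) (hl : 1 ≤ l) (hx1 : v - w ≤ x - 8 * l)
    (hx2 : x + 8 * l ≤ v + w) (hU : Pt0 S x (4 * l) U) (e : Bool) {a : Pt}
    (h1 : lg e x l ≤ a.1) (h2 : a.1 ≤ lg e x l + l) (h3 : 0 ≤ a.2) (h4 : a.2 ≤ 4 * l) :
    U a = U (bk e S.tip) := by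
  cases e
  · simp only [lg, Bool.false_eq_true, if_false] at h1 h2
    exact H318.west hB hl hx1 hx2 hU (by omega) (by omega) h3 h4
  · simp only [lg, if_true] at h1 h2
    exact H318.east hB hl hx1 hx2 hU (by omega) (by omega) h3 h4

theorem leg_cu (hB : H318.TB S v w (4 * l) H x) (hl : 1 ≤ l) (hx1 : v - w ≤ x - 8 * l)
    (hx2 : x + 8 * l ≤ v + w) (hU : Pt0 S x (4 * l) U) (e : Bool) {a : Pt}
    (h1 : lg e x l ≤ a.1) (h2 : a.1 < lg e x l + l) (h3 : 0 ≤ a.2) (h4 : a.2 < 4 * l) :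
    a ∈ CU e S (TT x l) U := by
  refine mem_CU.2 ⟨?_, hB.fresh _ ?_, leg_val hB hl hx1 hx2 hU e h1 h2.le h3 h4.le⟩
  · rw [mem_TT]
    cases e
    · simp only [lg, Bool.false_eq_true, if_false] at h1 h2
      omega
    · simp only [lg, if_true] at h1 h2
      omega
  · cases e
    · simp only [lg, Bool.false_eq_true, if_false] at h1 h2
      exact ⟨by omega, by omega, by omega, by omega⟩
    · simp only [lg, if_true] at h1 h2
      exact ⟨by omega, by omega, by omega, by omega⟩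

/-- **the arch gives the link** -/
theorem lk_of_ar (hB : H318.TB S v w (4 * l) H x) (hl : 1 ≤ l) (hH : 8 * l ≤ H)
    (hx1 : v - w ≤ x - 8 * l) (hx2 : x + 8 * l ≤ v + w) (hU : Pt0 S x (4 * l) U) {y : ℤ}
    (hy : l ≤ y) (hy' : y ≤ 3 * l) (h : fil e (TT x l) (CU e S (TT x l) U) ω ∈ AR e x l y) :
    ω ∈ LK e S (CU e S (TT x l) U) x l y := by
  obtain ⟨⟨s, t, hs, ht, hp1, hst⟩, ⟨s2, t2, hs2, ht2, hp2, hst2⟩,
    ⟨s3, t3, hs3, ht3, hp3, hst3⟩⟩ := h
  have hhp := tb_hp hB hl hx1 hx2 hU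
  have hlg : ∀ e, (lg e x l = x + 2 * l ∨ lg e x l = x - 3 * l) := by
    intro e
    cases e
    · exact Or.inr rfl
    · exact Or.inl rfl
  have l1 := hlg e
  have l2 := hlg (!e)
  -- the two meetings
  obtain ⟨z, z1, z2⟩ := meet hst (by omega : s.2 ≤ 6 * l) (by omega : 7 * l ≤ t.2) hp1 hst2
    (by omega : s2.1 ≤ lg e x l) (by omega : lg e x l + l ≤ t2.1) hp2 (by omega) (by omega)
  obtain ⟨z', z3, z4⟩ := meet hst3 (by omega : s3.2 ≤ 6 * l) (by omega : 7 * l ≤ t3.2) hp3 hst2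
    (by omega : s2.1 ≤ lg (!e) x l) (by omega : lg (!e) x l + l ≤ t2.1) hp2 (by omega) (by omega)
  have hsR := hst.left_mem
  have hs3R := hst3.left_mem
  rw [mem_rect] at hsR hs3R
  have c1 : Rect (lg e x l) (lg e x l + l) y (7 * l) ⊆ H318.Cs x l := by
    intro q hq
    rw [mem_rect] at hq
    refine ⟨by omega, by omega, by omega, by omega, fun _ => by omega⟩
  have c2 : Rect (x - 3 * l) (x + 3 * l) (6 * l) (7 * l) ⊆ H318.Cs x l := by
    intro q hq
    rw [mem_rect] at hq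
    refine ⟨by omega, by omega, by omega, by omega, fun _ => by omega⟩
  have c3 : Rect (lg (!e) x l) (lg (!e) x l + l) (3 * l) (7 * l) ⊆ H318.Cs x l := by
    intro q hq
    rw [mem_rect] at hq
    refine ⟨by omega, by omega, by omega, by omega, fun _ => by omega⟩
  have path : PConn (cs e (fil e (TT x l) (CU e S (TT x l) U) ω)) (H318.Cs x l) s s3 :=
    ((z1.mono subset_rfl c1).trans ((z2.symm.trans z4).mono subset_rfl c2)).trans
      (z3.symm.mono subset_rfl c3)
  have us : U s = U (bk e S.tip) :=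
    leg_val hB hl hx1 hx2 hU e hsR.1 hsR.2.1 (by omega) (by omega)
  have us3 : U s3 = U (bk (!e) S.tip) :=
    leg_val hB hl hx1 hx2 hU (!e) hs3R.1 hs3R.2.1 (by omega) (by omega)
  have hne : U s3 ≠ U (bk e S.tip) := by
    rw [us3]
    have h7 : U (ls S.tip) = U (rs S.tip) + 1 := hhp S.m le_rfl
    cases e
    · show U (ls S.tip) ≠ U (rs S.tip)
      omega
    · show U (rs S.tip) ≠ U (ls S.tip)
      omega
  obtain ⟨i, hi, hc⟩ := contact (e := e) hU hB.toOk (by omega) hB.tip_hdv hhp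
    (tb_tok hB hl hH hx1 hx2) hp1 path us hne
  -- the lower part of the leg
  obtain ⟨b, b1, b2, -⟩ := pconn_cut_first (fun w => w.2) row_inc hst
    (R := 4 * l) (by omega) (by omega)
  refine ⟨s, b, hs, b1, hp1, ?_, i, hi, hc⟩
  have b3 : PConn (cs e (fil e (TT x l) (CU e S (TT x l) U) ω))
      (Rect (lg e x l) (lg e x l + l) y (4 * l)) s b := b2.mono subset_rfl (by
    rintro q ⟨hq1, hq2⟩
    rw [mem_rect] at hq1 ⊢
    simp only [Set.mem_ofPred_eq] at hq2
    omega)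
  refine congr_rect (fun q hq k1 k2 k3 k4 => ?_) b3
  have hm := leg_cu hB hl hx1 hx2 hU e k1 k2 (by omega : 0 ≤ q.2) k4
  have hq' : fil e (TT x l) (CU e S (TT x l) U) ω q = e := hq
  rw [fil_in hm] at hq'
  exact ⟨hq', hm⟩

end

/-- **Probability of the link**, whatever happens outside of the squares `CU` -/
theorem lk_ge {Q : ℝ} (hQ : 1 ≤ Q) (h : RSW Q) : ∃ (c : ℝ) (l0 : ℤ), 0 < c ∧ c ≤ 1 ∧ 1 ≤ l0 ∧
    ∀ (e : Bool) (S : St) (v w l H x y : ℤ) (U : Pt → ℤ) (ω : Cfg), l0 ≤ l → 8 * l ≤ H →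
      H318.TB S v w (4 * l) H x → v - w ≤ x - 8 * l → x + 8 * l ≤ v + w → Pt0 S x (4 * l) U →
      Good ω → (∀ v, v ∉ S.F → ω v = S.z v) → l ≤ y → y ≤ 3 * l →
      c ≤ Pr Q (CU e S (TT x l) U) ω (LK e S (CU e S (TT x l) U) x l y) := by
  have hQ0 : 0 < Q := by linarith
  obtain ⟨c, l0, hc, hc1, hl0, h⟩ := ar_ge hQ h
  refine ⟨c, l0, hc, hc1, hl0, fun e S v w l H x y U ω hl hH hB hx1 hx2 hU hg hω hy hy' => ?_⟩
  have hl1 : 1 ≤ l := hl0.trans hl
  refine (h e x l y hl hy hy').trans ((link hQ hU hB.toOk (by omega) hB.tip_hdv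
    (tb_hp hB hl1 hx1 hx2 hU) (tb_tok hB hl1 hH hx1 hx2) hg hω (inc_AR e x l y)).trans
      (Pr_mono hQ0 fun ω' hω' => lk_of_ar hB hl1 hH hx1 hx2 hU hy hy' hω'))

end Vale.Agent.P167.H704.Q
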