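import Vale.Agent.P167.H704.Q.MassA
import Vale.Agent.P167.H166Q.GDefs

/-!
# P167, general `q`, block Q-NSYM: mass of the gates, assembly

`gref' : 1 ≤ Q → RSW Q → HIT Q → TAIL Q → DET → GREF' Q`.
-/

namespace Vale.Agent.P167.H704.Q

open Finset Vale.Agent.P145.FB Vale.Agent.P167 Vale.Agent.P167.FK Vale.Agent.P167.FKA
open Vale.Agent.P167.H871 (Dep)
open Vale.Agent.P167.H318 (St TA TB Flat PO Lo HB ex hit Visit RV_path stopSet_RV mem_RV RV_notMem
  rv_ok)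
open Vale.Agent.P167.H318.UQ (Rc mem_Rc Oc Dc Cq Aq Gt Te Tw ArE ArW Ctr HIT)
open Vale.Agent.P167.H685.Q (EQ PQ Gq TC hbF mem_hbF Cs PastS Zone RV_cf EQ_stop EQ_mono
  EQ_mul rv_int gq_rv)
open Vale.Agent.P167.H166Q (GE K4 HT nxt TL TAIL DET TCRV GELOC)

variable {Q : ℝ} {S : St} {l x ρ n m r : ℤ} {ω ω' : Cfg}

/-- **Strong Markov property** at the entrance, only the strand is revealed -/
theorem hit_nxt (hQ : 0 < Q) (hS : tlv S.e0 ∉ S.D) (hz : Good S.z) {E : Set Cfg} {c : ℝ}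
    (h : ∀ ω, Cs S ω → ω ∈ HitE S l x ρ n m → c ≤ PQ Q (nxt S x ρ n ω) E) :
    c * PQ Q S (HitE S l x ρ n m) ≤ PQ Q S E := by
  have hY : PastS S (S.RV (Lo x ρ (4 * n))) ((HitE S l x ρ n m).indicator 1) := by
    intro ω ω' hω hω' h3
    have h4 : ω' ∈ HitE S l x ρ n m ↔ ω ∈ HitE S l x ρ n m := by
      obtain ⟨h1, h2⟩ := RV_path hS (A := Lo x ρ (4 * n)) (ω := ω) (ω' := ω') h3
      rw [Cs.cf hω, Cs.cf hω'] at h1 h2
      unfold HitE
      simp only [Set.mem_ofPred_eq, h2]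
      rw [h1 _ le_rfl]
      refine and_congr Iff.rfl (forall_congr' fun j => forall_congr' fun _ => ?_)
      constructor
      · intro h3 hj
        rw [← h1 j hj.le]
        exact h3 hj
      · intro h3 hj
        rw [h1 j hj.le]
        exact h3 hj
    by_cases h5 : ω ∈ HitE S l x ρ n m
    · rw [Set.indicator_of_mem h5, Set.indicator_of_mem (h4.2 h5)]
      rfl
    · rw [Set.indicator_of_notMem h5, Set.indicator_of_notMem fun h => h5 (h4.1 h)]
  have h1 := EQ_stop hQ hz (stopSet_RV hS (Lo x ρ (4 * n))) (RV_cf (Lo x ρ (4 * n))) hY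
    (E.indicator 1)
  have h2 : EQ Q S (fun ω => (HitE S l x ρ n m).indicator 1 ω * E.indicator 1 ω) ≤ PQ Q S E := by
    refine EQ_mono hQ fun ω _ => ?_
    have := ind_le_one (HitE S l x ρ n m) ω
    have := ind_nonneg E ω
    nlinarith
  have h3 : c * PQ Q S (HitE S l x ρ n m) ≤ EQ Q S (fun ω => (HitE S l x ρ n m).indicator 1 ω *
      EQ Q (S.rv (S.RV (Lo x ρ (4 * n)) ω) ω) (E.indicator 1)) := by
    show c * EQ Q S ((HitE S l x ρ n m).indicator 1) ≤ _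
    rw [← EQ_mul]
    refine EQ_mono hQ fun ω hω => ?_
    by_cases h5 : ω ∈ HitE S l x ρ n m
    · rw [Set.indicator_of_mem h5]
      have := h ω hω h5
      simp only [Pi.one_apply, mul_one, one_mul]
      exact this
    · rw [Set.indicator_of_notMem h5]
      simp
  exact h3.trans (h1.symm.le.trans h2)

/-- **(P3)** -/
theorem tcrv : TCRV := by
  intro S l x ρ n y ω hn hnl hρ hS hg hω hH hyx
  have hZ := zone_of hS hn hnl (by omega)
  obtain ⟨y', h1, h2, h3⟩ := hitE_X1 (l := l) (m := n) hS hn (by omega) (by omega) hω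
    ⟨⟨y, hH.1, hyx⟩, hH.2⟩
  have hXe : S.X1 (Lo x ρ (4 * n)) ω = Sum.inr (y, 4 * n - 1) := by
    show H318.st S.e0 (S.cf ω) (hit S.D S.e0 (Lo x ρ (4 * n)) (S.cf ω)) = _
    rw [Cs.cf hω]
    exact hH.1
  have hyy : y' = y := by
    rw [hXe] at h2
    have := Sum.inr.inj h2
    exact (congrArg Prod.fst this).symm
  rw [hyy] at h3
  have hev : Even (y + (4 * n - 1)) := by
    by_contra hev
    rw [hXe] at h3
    simp only [hdv, hev, if_false, Prod.mk.injEq] at h3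
    omega
  have hyx' := abs_le.1 hyx
  obtain ⟨-, htip, hPO⟩ := rv_int hS.toOk (A := Lo x ρ (4 * n)) (fun v hv => hZ.fr v hv) ω
  have hlow : ∀ v : ℤ × ℤ, v ∈ Lo y (ρ - n) (4 * n) → v ∈ Lo x ρ (4 * n) := fun v hv => by
    obtain ⟨h1, h2, h3, h4'⟩ := hv
    exact ⟨by omega, by omega, h3, h4'⟩
  exact
    { toOk := rv_ok hS.toOk _ ω
      flat := ⟨fun q hq => hS.sub (hZ.fr _ (hlow q hq)), fun a h1 h2 =>
        hS.flat'.not a (by omega) (by omega)⟩
      fresh := fun q hq => Finset.mem_sdiff.2 ⟨hZ.fr _ (hlow q hq), fun h =>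
        RV_notMem h (hlow q hq)⟩
      flat' := ⟨fun q hq => hS.flat'.mem q ⟨by have := hq.1; omega, by have := hq.2.1; omega,
        hq.2.2.1, by have := hq.2.2.2; omega⟩, fun a h1 h2 => hS.flat'.not a (by omega) (by omega)⟩
      po := fun q hq => hPO _ hS.po q ⟨by have := hq.1; omega, by have := hq.2.1; omega,
        hq.2.2.1, by have := hq.2.2.2; omega⟩
      tip := by
        show (S.rv (S.RV (Lo x ρ (4 * n)) ω) ω).tip = _
        rw [htip, hXe]
      ev := hev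
      gq := gq_rv (H685.Q.Gq.mono hS.gq (by omega) (by omega)) _ _ }

/-! ### locality -/

theorem hit_loc {D : Finset (ℤ × ℤ)} {e0 : Ed} {A : Set (ℤ × ℤ)} {ξ ξ' : Cfg}
    (h : ∀ v ∈ D, ξ' v = ξ v) : hit D e0 A ξ' = hit D e0 A ξ ∧
      ∀ i ≤ hit D e0 A ξ, H318.st e0 ξ' i = H318.st e0 ξ i := by
  by_cases hne : ∃ k, hdv (H318.st e0 ξ k) ∈ A ∨ hdv (H318.st e0 ξ k) ∉ D
  · have h1 : ∀ i ≤ hit D e0 A ξ, H318.st e0 ξ' i = H318.st e0 ξ i :=
      H318.Bs.st_congr fun i hi => h _ (H318.Bs.hit_min hi).2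
    refine ⟨H318.Bs.hit_eq_of ?_ ?_, h1⟩
    · rw [h1 _ le_rfl]
      exact Nat.sInf_mem (s := {n | hdv (H318.st e0 ξ n) ∈ A ∨ hdv (H318.st e0 ξ n) ∉ D}) hne
    · intro i hi
      rw [h1 i hi.le]
      exact H318.Bs.hit_min hi
  · have h0 : ∀ k, hdv (H318.st e0 ξ k) ∈ D := fun k => by
      by_contra hc
      exact hne ⟨k, Or.inr hc⟩
    have h1 : ∀ k, H318.st e0 ξ' k = H318.st e0 ξ k := fun k =>
      H318.Bs.st_congr (n := k) (fun i _ => h _ (h0 i)) k le_rfl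
    refine ⟨?_, fun i _ => h1 i⟩
    unfold hit
    simp only [h1]

/-- `GE` reads only the squares of the window -/
theorem geloc : GELOC := by
  intro K3 K x n l' hK3 hKK hn hl' hln
  refine dep_loc fun o o' ho hE => ?_
  obtain ⟨e, ⟨h1, ⟨p, h2, h3, h4⟩, q, h5, h6, h7⟩, ⟨b1, h8, h9⟩, ⟨b2, h10, h11⟩, h12, h13⟩ := hE
  have kn : 16 * n ≤ K * n := mul_le_mul_of_nonneg_right (by omega) (by omega)
  have hAq : ∀ v ∈ Aq K3 K x n, o v = o' v := fun v hv => ho v (by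
    rw [mem_Aq'] at hv
    rw [mem_hbF]
    simp only [HB, Set.mem_ofPred_eq]
    omega)
  have hTe : ∀ v ∈ Te K x n, o v = o' v := fun v hv => ho v (by
    rw [Te, mem_Rc] at hv
    rw [mem_hbF]
    simp only [HB, Set.mem_ofPred_eq]
    omega)
  have hTw : ∀ v ∈ Tw K x n, o v = o' v := fun v hv => ho v (by
    rw [Tw, mem_Rc] at hv
    rw [mem_hbF]
    simp only [HB, Set.mem_ofPred_eq]
    omega)
  have oc : ∀ {V : Finset (ℤ × ℤ)} {s t : ℤ × ℤ}, (∀ v ∈ V, o v = o' v) → Oc V o s t →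
      Oc V o' s t := fun {V} _ _ hV h => h.mono (F' := op o' ∩ ↑V) (fun v hv => ⟨by
        show o' v = true
        rw [← hV v hv.2]
        exact hv.1, hv.2⟩) subset_rfl
  have dc : ∀ {V : Finset (ℤ × ℤ)} {s t : ℤ × ℤ}, (∀ v ∈ V, o v = o' v) → Dc V o s t →
      Dc V o' s t := fun {V} _ _ hV h => h.mono (F' := (op o')ᶜ ∩ ↑V) (fun v hv => ⟨by
        show ¬ o' v = true
        rw [← hV v hv.2]
        exact hv.1, hv.2⟩) subset_rfl
  have hI : ∀ v ∈ hbF x (K * n), o' v = o v := fun v hv => (ho v (by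
    rw [mem_hbF] at hv ⊢
    simp only [HB, Set.mem_ofPred_eq] at hv ⊢
    omega)).symm
  obtain ⟨i1, i2⟩ := hit_loc (e0 := e) (A := Lo x (K * n) (4 * l')) hI
  obtain ⟨i3, -⟩ := hit_loc (e0 := e) (A := (∅ : Set (ℤ × ℤ))) hI
  refine ⟨e, ⟨h1, ⟨p, h2, h3, oc hAq h4⟩, q, h5, h6, dc hAq h7⟩, ⟨b1, h8, oc (fun v hv => ?_) h9⟩,
    ⟨b2, h10, dc (fun v hv => ?_) h11⟩, ?_, ?_⟩
  · rcases Finset.mem_union.1 (Finset.mem_filter.1 hv).1 with h | h
    · exact hAq v h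
    · exact hTe v h
  · rcases Finset.mem_union.1 (Finset.mem_filter.1 hv).1 with h | h
    · exact hAq v h
    · exact hTw v h
  · rw [i1]
    show _ < hit (hbF x (K * n)) e ∅ o'
    rw [i3]
    exact h12
  · rw [i1, i2 _ le_rfl]
    exact h13

/-- **GREF'** -/
theorem gref' (hQ : 1 ≤ Q) (h : RSW Q) (hH : HIT Q) (hT : TAIL Q) (hD : DET) : GREF' Q := by
  have hQ0 : 0 < Q := by linarith
  obtain ⟨α, C, hα, -, hP, hPD⟩ := arm_fk hQ h
  obtain ⟨L, hL⟩ := H519.exists_rat hQ hα hP hPD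
  have hL2 := hL.1
  obtain ⟨Λ, K3, hΛ, hK3, hT⟩ := hT
  have hK4 : K3 + 8 ≤ K4 Λ K3 := by
    unfold K4
    have h1 : 0 ≤ K3 + 8 := by omega
    have h2 : K3 + 8 ≤ Λ * (K3 + 8) := by nlinarith
    nlinarith
  obtain ⟨c3, n3, hc3, hn3, hT⟩ := hT K3 (20 * K4 Λ K3 + 20) le_rfl le_rfl
  obtain ⟨c2, n2, hc2, hH2⟩ := hH (K4 Λ K3)
  set M := K4 Λ K3 with hM
  set K := 20 * M + 20 with hK
  refine ⟨K3, K, L * (L * (2 * K + 3)), by omega, by omega, fun K0 hK0 =>
    ⟨max K0 (max K (8 * M)), fun K1 hK1 => ?_⟩⟩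
  obtain ⟨c1, n1, hc1, hH1⟩ := hH (2 * K1)
  refine ⟨max n1 (max n2 n3), c1 * (c2 * c3) / 8, by omega, by positivity,
    fun S l x ρ n l' hn hl' hln hl hl2 hρ hS => ?_⟩
  have hn1 : 1 ≤ n := by omega
  have m1 : K0 * n ≤ l := by
    have := mul_le_mul_of_nonneg_right (show K0 ≤ K1 by omega) (show 0 ≤ n by omega)
    linarith
  have m2 : K * n ≤ l := by
    have := mul_le_mul_of_nonneg_right (show K ≤ K1 by omega) (show 0 ≤ n by omega)
    linarith
  have m3 : 8 * (M * n) ≤ l := by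
    have := mul_le_mul_of_nonneg_right (show 8 * M ≤ K1 by omega) (show 0 ≤ n by omega)
    linarith
  have m4 : 24 * n ≤ M * n := mul_le_mul_of_nonneg_right (by omega) (by omega)
  have m5 : 16 * n ≤ K * n := mul_le_mul_of_nonneg_right (by omega) (by omega)
  -- the second step
  have s1 : ∀ (S1 : St) (y1 : ℤ), |y1 - x| ≤ n → TC S1 (M * n) y1 (ρ - M * n) →
      c2 * c3 ≤ PQ Q S1 (GE K3 K x n l') := by
    intro S1 y1 hy1 hS1
    have k1 : c2 ≤ PQ Q S1 (HitE S1 (M * n) y1 (ρ - M * n) n n) :=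
      hH2 S1 (M * n) y1 (ρ - M * n) n n (by omega) le_rfl (by omega) (by omega) (by omega) hS1
    have k2 := hit_nxt (Q := Q) (S := S1) (l := M * n) (x := y1) (ρ := ρ - M * n) (n := n) (m := n)
      (E := GE K3 K x n l') (c := c3) hQ0 hS1.st hS1.gq.good fun ω hω hE => by
        obtain ⟨⟨y, hy, hyy⟩, hst⟩ := hE
        have hHT : HT S1 (M * n) y1 (ρ - M * n) n y ω := ⟨hy, hst⟩
        have htc := tcrv S1 (M * n) y1 (ρ - M * n) n y ω hn1 (by omega) (by omega) hS1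
          (Cs.good hω hS1.gq.good) hω hHT hyy
        have hyx : |y - x| ≤ 2 * n := by
          rw [abs_le] at *
          omega
        refine (hT (nxt S1 y1 (ρ - M * n) n ω) x y (ρ - M * n - n) n (by omega) hyx (by omega)
          htc).trans (EQ_mono hQ0 fun ξ hξ => ?_)
        by_cases hTL : TL (nxt S1 y1 (ρ - M * n) n ω) K3 K Λ x y n ξ
        · have h7 := hD K3 K Λ hK3 hΛ le_rfl S1 x y1 y (ρ - M * n) n l' ω ξ hn1 hl' hln hy1 hyy
            (by omega) hS1 hω hHT htc hξ hTL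
          have h8 : ξ ∈ GE K3 K x n l' := ⟨_, h7⟩
          rw [Set.indicator_of_mem h8]
          exact ind_le_one _ _
        · rw [Set.indicator_of_notMem (show ξ ∉ {ξ | TL (nxt S1 y1 (ρ - M * n) n ω) K3 K Λ x y n ξ}
            from hTL)]
          exact ind_nonneg _ _
    calc c2 * c3 = c3 * c2 := mul_comm _ _
      _ ≤ _ := (mul_le_mul_of_nonneg_left k1 hc3.le).trans k2
  -- the first step
  have s2 : c1 * (c2 * c3) ≤ PQ Q S (GE K3 K x n l') := by
    have k1 : c1 ≤ PQ Q S (HitE S l x ρ (M * n) n) :=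
      hH1 S l x ρ (M * n) n (by omega) (by omega) m3 (by linarith) hρ hS
    have k2 := hit_nxt (Q := Q) (S := S) (l := l) (x := x) (ρ := ρ) (n := M * n) (m := n)
      (E := GE K3 K x n l') (c := c2 * c3) hQ0 hS.st hS.gq.good fun ω hω hE => by
        obtain ⟨⟨y, hy, hyy⟩, hst⟩ := hE
        have hHT : HT S l x ρ (M * n) y ω := ⟨hy, hst⟩
        exact s1 _ y hyy (tcrv S l x ρ (M * n) y ω (by omega) (by omega) hρ hS
          (Cs.good hω hS.gq.good) hω hHT (hyy.trans (by omega)))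
    calc c1 * (c2 * c3) = c2 * c3 * c1 := mul_comm _ _
      _ ≤ _ := (mul_le_mul_of_nonneg_left k1 (by positivity)).trans k2
  -- the reference law
  have s3 := (ref_two (r := 2 * (K * n) + 2) (K0 := K0 * n) hQ hL (by omega) (by
    have h1 : 2 * (K * n) + 2 + 1 ≤ (2 * K + 3) * n := by nlinarith
    have h2 : L * (2 * (K * n) + 2 + 1) ≤ L * ((2 * K + 3) * n) :=
      mul_le_mul_of_nonneg_left h1 (by omega)
    have h3 : L * (L * (2 * (K * n) + 2 + 1)) ≤ L * (L * ((2 * K + 3) * n)) :=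
      mul_le_mul_of_nonneg_left h2 (by omega)
    have h4 := mul_le_mul_of_nonneg_right hK0 (show 0 ≤ n by omega)
    have h5 : L * (L * ((2 * K + 3) * n)) = L * (L * (2 * K + 3)) * n := by ring
    linarith) (by omega) (by omega) hS
    (fun ω => ind_nonneg (GE K3 K x n l') ω) (geloc K3 K x n l' (by omega) (by omega) hn1 hl' hln)).2
  have s4 : PQ Q S (GE K3 K x n l') ≤ 8 * FK.Pr Q (hbF x (K0 * n)) eta0 (GE K3 K x n l') := s3
  have s5 : c1 * (c2 * c3) / 8 ≤ FK.Pr Q (hbF x (K0 * n)) eta0 (GE K3 K x n l') := by linarith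
  exact s5

end Vale.Agent.P167.H704.Q
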