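import Vale.Agent.P167.H318.Q.Gate
import Vale.Agent.P167.H704.Q.Link

/-!
# P167, general `q`, block Q-NSYM, minorization: the arms of the gate are joined to the banks

Deterministic part: an arm of colour `b` which crosses the tube at height `[n, 2 n]`, crossings of the
corridor (`BE`) and the link `LK` give a path to the bank of the tip at height `≥ n`, off the box `C`.
-/

namespace Vale.Agent.P167.H704.Q

open Finset Vale.Agent.P145.FB Vale.Agent.P153 Vale.Agent.P153.Topo Vale.Agent.P167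
  Vale.Agent.P167.H632 Vale.Agent.P167.H871 Vale.Agent.P167.H704 Vale.Agent.P167.FK
  Vale.Agent.P167.FKA
open Vale.Agent.P167.H318 (St Pt0 Cl0 FlatAt st)
open Vale.Agent.P167.H318.UQ (Rc mem_Rc Oc Dc Cq Aq Gt Te Tw ArE ArW Uh Lnk)
open Relation

/-! ### paths -/

/-- a path which crosses the strip `p ≤ x ≤ q` -/
theorem arm_cut {G Rg : Set Pt} {p q : ℤ} (hpq : p ≤ q) {s t : Pt} (h : PConn G Rg s t)
    (hst : (s.1 ≤ p ∧ q ≤ t.1) ∨ (t.1 ≤ p ∧ q ≤ s.1)) :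
    ∃ z z' : Pt, z.1 = p ∧ z'.1 = q ∧ PConn G Rg s z ∧
      PConn G (Rg ∩ {w | p ≤ w.1 ∧ w.1 ≤ q}) z z' := by
  rcases hst with ⟨h1, h2⟩ | ⟨h1, h2⟩
  · obtain ⟨z, z', k1, k2, k3, k4, -⟩ := cut2 (fun w => w.1) col_inc hpq h h1 h2
    exact ⟨z, z', k1, k2, k3.mono subset_rfl Set.inter_subset_left, k4⟩
  · obtain ⟨z, z', k1, k2, -, k4, k5⟩ := cut2 (fun w => w.1) col_inc hpq h.symm h1 h2
    exact ⟨z, z', k1, k2, k5.symm.trans (k4.symm.mono subset_rfl Set.inter_subset_left), k4⟩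

/-- the part in the strip stays in the rows of the squares -/
theorem strip_rect {G Rg : Set Pt} {p q n m : ℤ} (hpq : p < q)
    (hG : ∀ v ∈ G, p ≤ v.1 → v.1 < q → n ≤ v.2 ∧ v.2 < m) {z z' : Pt} (hz : z.1 = p)
    (hz' : z'.1 = q) (h : PConn G (Rg ∩ {w | p ≤ w.1 ∧ w.1 ≤ q}) z z') :
    PConn G (Rect p q n m) z z' := by
  have key : z' = z ∨ PConn G (Rect p q n m) z z' := by
    clear hz'
    obtain ⟨h0, h⟩ := h
    induction h with
    | refl => exact Or.inl rfl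
    | @tail u w hu huw ih =>
      have hum : u ∈ Rg ∩ {w | p ≤ w.1 ∧ w.1 ≤ q} := (show PConn G _ z u from ⟨h0, hu⟩).right_mem
      have h1 := hum.2
      have h2 := huw.2.2
      simp only [Set.mem_ofPred_eq] at h1 h2
      have hst := huw.1
      have s1 := hst.1
      have s2 := hst.2.1
      have h3 := hG _ hst.2.2 (by dsimp only; omega) (by dsimp only; omega)
      dsimp only at h3
      have hu' : u ∈ Rect p q n m := by
        rw [mem_rect]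
        omega
      have hw' : w ∈ Rect p q n m := by
        rw [mem_rect]
        omega
      rcases ih with h4 | h4
      · subst h4
        exact Or.inr ((PConn.refl hu').tail hst hw')
      · exact Or.inr (h4.tail hst hw')
  rcases key with h1 | h1
  · rw [h1] at hz'
    omega
  · exact h1

/-- the sites of a path are corners of the squares -/
theorem path_rg {G Rg : Set Pt} {R : Set Pt} {s t : Pt} (hs : s ∈ R)
    (hG : ∀ v ∈ G, ∀ u, Cor v u → u ∈ R) (h : PConn G Rg s t) : PConn G R s t := by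
  obtain ⟨-, h⟩ := h
  induction h with
  | refl => exact PConn.refl hs
  | @tail u w _ huw ih =>
    exact ih.tail huw.1 (hG _ huw.1.2.2 _ (cor_of_step huw.1).2)

/-! ### The corridor -/

/-- left end of the corridor -/
def pL (b : Bool) (x l N n : ℤ) : ℤ := if b then x + N + 1 + n else x - 3 * l

/-- right end of the corridor -/
def pR (b : Bool) (x l N n : ℤ) : ℤ := if b then x + 3 * l else x - N - n

/-- column in the tube of the arm -/
def pT (b : Bool) (x N n : ℤ) : ℤ := if b then x + N + 1 + n else x - N - 2 * n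

/-- the crossings of the corridor and the link -/
def BE (b : Bool) (S : St) (C : Finset Pt) (x l N n : ℤ) : Set Cfg :=
  Vc b (pT b x N n) (pT b x N n + n) n (2 * n) ∩ (Hc b (pL b x l N n) (pR b x l N n) n (2 * n) ∩
    (Vc b (lg b x l) (lg b x l + n) n (2 * l) ∩ (Hc b (lg b x l) (lg b x l + l) l (2 * l) ∩
      LK b S C x l l)))

/-- the far end of the tube -/
def Far (b : Bool) (x N : ℤ) (t : Pt) : Prop := if b then x + 2 * N ≤ t.1 else t.1 ≤ x - 2 * N + 1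

/-- the side of the tube -/
def Sd (b : Bool) (x N : ℤ) (v : Pt) : Prop := if b then x + N < v.1 else v.1 < x - N

variable {b : Bool} {ω : Cfg} {S : St} {x l N n ρ : ℤ} {C D V : Finset Pt} {s t : Pt}

/-- a path in a rectangle whose squares avoid `C` -/
theorem rect_off {a a' p q : ℤ} {u w : Pt} (h : PConn (cs b ω) (Rect a a' p q) u w)
    (hC : ∀ v ∈ C, ¬ (a ≤ v.1 ∧ v.1 < a' ∧ p ≤ v.2 ∧ v.2 < q))
    (hU : x - ρ ≤ a ∧ a' ≤ x + ρ + 1 ∧ n ≤ p ∧ q ≤ ρ + 1) :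
    PConn (cs b ω ∩ (↑C)ᶜ) (Uh x ρ n) u w := by
  refine (congr_rect (G := cs b ω ∩ (↑C)ᶜ) (fun v hv k1 k2 k3 k4 => ⟨hv, fun hvC => ?_⟩) h).mono
    subset_rfl fun v hv => ?_
  · exact hC v (Finset.mem_coe.1 hvC) ⟨k1, k2, k3, k4⟩
  · rw [mem_rect] at hv
    simp only [Uh, Set.mem_ofPred_eq]
    omega

theorem cols (b : Bool) (x l N n : ℤ) : (b = true ∧ pT b x N n = x + N + 1 + n ∧
      pL b x l N n = x + N + 1 + n ∧ pR b x l N n = x + 3 * l ∧ lg b x l = x + 2 * l) ∨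
      (b = false ∧ pT b x N n = x - N - 2 * n ∧ pL b x l N n = x - 3 * l ∧
      pR b x l N n = x - N - n ∧ lg b x l = x - 3 * l) := by
  cases b
  · exact Or.inr ⟨rfl, rfl, rfl, rfl, rfl⟩
  · exact Or.inl ⟨rfl, rfl, rfl, rfl, rfl⟩

/-- the crossings join the tube to the bank -/
theorem glue1 (hn : 1 ≤ n) (hN : 16 * n ≤ N) (hl : 4 * N ≤ l) (hρ : 20 * l ≤ ρ)
    (hC : ∀ v ∈ C, x - N ≤ v.1 ∧ v.1 ≤ x + N ∧ v.2 ≤ N)
    (hD : ∀ v ∈ D, v ∉ C) (hB : ω ∈ BE b S D x l N n) :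
    ∃ s1 t1 : Pt, s1.2 = n ∧ t1.2 = 2 * n ∧ (s1.1 + s1.2) % 2 = pr b ∧
      PConn (cs b ω) (Rect (pT b x N n) (pT b x N n + n) n (2 * n)) s1 t1 ∧
      ∃ i ≤ S.m, PConn (cs b ω ∩ (↑C)ᶜ) (Uh x ρ n) s1 (bk b (st S.e0 S.z i)) := by
  obtain ⟨⟨s1, t1, a1, b1, p1, h1⟩, ⟨s2, t2, a2, b2, p2, h2⟩, ⟨s3, t3, a3, b3, p3, h3⟩,
    ⟨s4, t4, a4, b4, p4, h4⟩, ⟨a0, b0, a5, b5, p5, h5, i, hi, h6⟩⟩ := hB
  have hT := cols b x l N n
  set u1 := pT b x N n
  set u2 := pL b x l N n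
  set u3 := pR b x l N n
  set u4 := lg b x l
  -- the meetings
  obtain ⟨m2, m2a, m2b⟩ := meet h1 (by omega : s1.2 ≤ n) (by omega : 2 * n ≤ t1.2) p1 h2
    (by omega : s2.1 ≤ u1) (by omega : u1 + n ≤ t2.1) p2 (by omega) (by omega)
  obtain ⟨m3, m3a, m3b⟩ := meet h3 (by omega : s3.2 ≤ n) (by omega : 2 * n ≤ t3.2) p3 h2
    (by omega : s2.1 ≤ u4) (by omega : u4 + n ≤ t2.1) p2 (by omega) (by omega)
  obtain ⟨m4, m4a, m4b⟩ := meet h3 (by omega : s3.2 ≤ l) (by omega : 2 * l ≤ t3.2) p3 h4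
    (by omega : s4.1 ≤ u4) (by omega : u4 + n ≤ t4.1) p4 (by omega) (by omega)
  have h5' : PConn (cs b ω) (Rect u4 (u4 + l) l (4 * l)) a0 b0 :=
    h5.mono Set.inter_subset_left subset_rfl
  obtain ⟨m5, m5a, m5b⟩ := meet h5' (by omega : a0.2 ≤ l) (by omega : 2 * l ≤ b0.2) p5 h4
    (by omega : s4.1 ≤ u4) (by omega : u4 + l ≤ t4.1) p4 (by omega) (by omega)
  -- the paths avoid `C`
  have hC' : ∀ v ∈ C, x - N ≤ v.1 ∧ v.1 ≤ x + N := fun v hv => ⟨(hC v hv).1, (hC v hv).2.1⟩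
  have o1 : ∀ {u w : Pt}, PConn (cs b ω) (Rect u1 (u1 + n) n (2 * n)) u w →
      PConn (cs b ω ∩ (↑C)ᶜ) (Uh x ρ n) u w := fun h => rect_off h (fun v hv hv' => by
    have := hC' v hv
    omega) ⟨by omega, by omega, le_rfl, by omega⟩
  have o2 : ∀ {u w : Pt}, PConn (cs b ω) (Rect u2 u3 n (2 * n)) u w →
      PConn (cs b ω ∩ (↑C)ᶜ) (Uh x ρ n) u w := fun h => rect_off h (fun v hv hv' => by
    have := hC' v hv
    omega) ⟨by omega, by omega, le_rfl, by omega⟩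
  have o3 : ∀ {u w : Pt}, PConn (cs b ω) (Rect u4 (u4 + n) n (2 * l)) u w →
      PConn (cs b ω ∩ (↑C)ᶜ) (Uh x ρ n) u w := fun h => rect_off h (fun v hv hv' => by
    have := hC' v hv
    omega) ⟨by omega, by omega, le_rfl, by omega⟩
  have o4 : ∀ {u w : Pt}, PConn (cs b ω) (Rect u4 (u4 + l) l (2 * l)) u w →
      PConn (cs b ω ∩ (↑C)ᶜ) (Uh x ρ n) u w := fun h => rect_off h (fun v hv hv' => by
    have := hC' v hv
    omega) ⟨by omega, by omega, by omega, by omega⟩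
  have o5 : ∀ {u w : Pt}, PConn (cs b ω) (Rect u4 (u4 + l) l (4 * l)) u w →
      PConn (cs b ω ∩ (↑C)ᶜ) (Uh x ρ n) u w := fun h => rect_off h (fun v hv hv' => by
    have := hC' v hv
    omega) ⟨by omega, by omega, by omega, by omega⟩
  have fin : PConn (cs b ω ∩ (↑C)ᶜ) (Uh x ρ n) a0 (bk b (st S.e0 S.z i)) := by
    refine h6.mono (F' := cs b ω ∩ (↑C)ᶜ) (fun v hv => ⟨hv.1, fun h => hD v
      (Finset.mem_coe.1 hv.2) (Finset.mem_coe.1 h)⟩) fun v hv => ?_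
    obtain ⟨c1, c2, c3, c4, -⟩ := hv
    simp only [Uh, Set.mem_ofPred_eq]
    omega
  refine ⟨s1, t1, a1, b1, p1, h1, i, hi, ?_⟩
  exact (((((o1 m2a).trans (o2 m2b).symm).trans ((o2 m3b).trans (o3 m3a).symm)).trans
    ((o3 m4a).trans (o4 m4b).symm)).trans ((o4 m5b).trans (o5 m5a).symm)).trans fin

/-- **The arm is joined to the bank.** -/
theorem glue (hn : 1 ≤ n) (hN : 16 * n ≤ N) (hl : 4 * N ≤ l) (hρ : 20 * l ≤ ρ)
    (hC : ∀ v ∈ C, x - N ≤ v.1 ∧ v.1 ≤ x + N ∧ v.2 ≤ N)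
    (hD : ∀ v ∈ D, v ∉ C)
    (hV : ∀ v ∈ V, v ∉ C ∧ x - 2 * N ≤ v.1 ∧ v.1 ≤ x + 2 * N ∧ n ≤ v.2 ∧ v.2 ≤ N ∧
      (Sd b x N v → v.2 < 2 * n))
    (hs1 : x - N ≤ s.1) (hs2 : s.1 ≤ x + N) (hs3 : n ≤ s.2) (hs4 : s.2 ≤ N)
    (hsp : (s.1 + s.2) % 2 = pr b) (ht : Far b x N t)
    (harm : PConn (cs b ω ∩ ↑V) Set.univ s t) (hB : ω ∈ BE b S D x l N n) :
    ∃ i ≤ S.m, PConn (cs b ω ∩ (↑C)ᶜ) (Uh x ρ n) s (bk b (st S.e0 S.z i)) := by
  obtain ⟨s1, t1, a1, b1, p1, h1, i, hi, h2⟩ := glue1 hn hN hl hρ hC hD hB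
  have hT := cols b x l N n
  have hfar : (b = true ∧ x + 2 * N ≤ t.1) ∨ (b = false ∧ t.1 ≤ x - 2 * N + 1) := by
    cases b
    · exact Or.inr ⟨rfl, ht⟩
    · exact Or.inl ⟨rfl, ht⟩
  clear hB
  set u1 := pT b x N n
  -- the arm
  obtain ⟨z, z', k1, k2, k3, k4⟩ := arm_cut (p := u1) (q := u1 + n) (by omega) harm (by
    rcases hT with ⟨g1, g2, -⟩ | ⟨g1, g2, -⟩ <;> rcases hfar with ⟨f1, f2⟩ | ⟨f1, f2⟩
    · exact Or.inl ⟨by omega, by omega⟩
    · rw [g1] at f1; simp at f1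
    · rw [g1] at f1; simp at f1
    · exact Or.inr ⟨by omega, by omega⟩)
  have k5 : PConn (cs b ω ∩ ↑V) (Rect u1 (u1 + n) n (2 * n)) z z' := by
    refine strip_rect (by omega) (fun v hv c1 c2 => ?_) k1 k2 k4
    obtain ⟨-, -, -, c3, -, c4⟩ := hV v (Finset.mem_coe.1 hv.2)
    refine ⟨c3, c4 ?_⟩
    rcases hT with ⟨g1, g2, -⟩ | ⟨g1, g2, -⟩
    · rw [Sd, g1, if_pos rfl]
      omega
    · rw [Sd, g1, if_neg (by simp)]
      omega
  have k6 : PConn (cs b ω) (Rect u1 (u1 + n) n (2 * n)) z z' :=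
    k5.mono Set.inter_subset_left subset_rfl
  have hzp : (z.1 + z.2) % 2 = pr b := by rw [← k3.parity, hsp]
  have k7 : PConn (cs b ω ∩ ↑V) (Uh x ρ n) s z := by
    refine path_rg (by simp only [Uh, Set.mem_ofPred_eq]; omega) (fun v hv u hu => ?_) k3
    obtain ⟨-, c1, c2, c3, c4, -⟩ := hV v (Finset.mem_coe.1 hv.2)
    obtain ⟨d1, d2⟩ := hu
    simp only [Uh, Set.mem_ofPred_eq]
    omega
  have armU : PConn (cs b ω ∩ (↑C)ᶜ) (Uh x ρ n) s z :=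
    k7.mono (F' := cs b ω ∩ (↑C)ᶜ) (fun v hv => ⟨hv.1, fun h =>
      (hV v (Finset.mem_coe.1 hv.2)).1 (Finset.mem_coe.1 h)⟩) subset_rfl
  obtain ⟨m1, m1a, m1b⟩ := meet h1 (by omega : s1.2 ≤ n) (by omega : 2 * n ≤ t1.2) p1 k6
    (by omega : z.1 ≤ u1) (by omega : u1 + n ≤ z'.1) hzp (by omega) (by omega)
  have o1 : ∀ {u w : Pt}, PConn (cs b ω) (Rect u1 (u1 + n) n (2 * n)) u w →
      PConn (cs b ω ∩ (↑C)ᶜ) (Uh x ρ n) u w := fun h => rect_off h (fun v hv hv' => by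
    have := hC v hv
    omega) ⟨by omega, by omega, le_rfl, by omega⟩
  exact ⟨i, hi, (armU.trans ((o1 m1b).trans (o1 m1a).symm)).trans h2⟩

end Vale.Agent.P167.H704.Q
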