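import Vale.Agent.P167.H704.Q.Minor
import Vale.Agent.P167.H685.Q.Rec2

/-!
# P167, general `q`, block Q-NSYM: mass of the gates, probabilistic steps

`HitE`: the event of `HIT`. `hit_step`: strong Markov property at the first entrance of the lower zone.
`new_tc`: the new state. `ref_two`: comparison of a state with the reference box (both directions).
-/

namespace Vale.Agent.P167.H704.Q

open Finset Vale.Agent.P145.FB Vale.Agent.P167 Vale.Agent.P167.FK Vale.Agent.P167.FKA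
open Vale.Agent.P167.H318 (St TA TB Flat PO Lo HB ex hit Visit RV_path stopSet_RV mem_RV)
open Vale.Agent.P167.H318.UQ (Rc mem_Rc Oc Dc Cq Aq Gt Te Tw ArE ArW Ctr HIT)
open Vale.Agent.P167.H685.Q (EQ PQ Gq TC hbF mem_hbF Cs RC PastS Zone stop_RC RC_cf EQ_stop EQ_mono
  EQ_mul RV_sub_RC)

/-- the event of `HIT` -/
def HitE (S : St) (l x ρ n m : ℤ) : Set Cfg :=
  {ξ | (∃ y, H318.st S.e0 ξ (hit S.D S.e0 (Lo x ρ (4 * n)) ξ) = Sum.inr (y, 4 * n - 1) ∧
      |y - x| ≤ m) ∧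
    ∀ j, S.m ≤ j → j < hit S.D S.e0 (Lo x ρ (4 * n)) ξ → hdv (H318.st S.e0 ξ j) ∈ HB x (20 * l)}

variable {Q : ℝ} {S : St} {l x ρ n m r : ℤ} {ω ω' : Cfg}

/-- the event is determined by the squares revealed until the entrance -/
theorem hitE_past (hS : tlv S.e0 ∉ S.D) (hω : Cs S ω) (hω' : Cs S ω')
    (h : ∀ v ∈ RC S x ρ n r ω, ω' v = ω v) :
    ω' ∈ HitE S l x ρ n m ↔ ω ∈ HitE S l x ρ n m := by
  obtain ⟨h1, h2⟩ := RV_path hS (A := Lo x ρ (4 * n)) (ω := ω) (ω' := ω') fun v hv =>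
    h v (RV_sub_RC hv)
  rw [hω.cf, hω'.cf] at h1 h2
  unfold HitE
  simp only [Set.mem_ofPred_eq, h2]
  rw [h1 _ le_rfl]
  refine and_congr Iff.rfl (forall_congr' fun j => forall_congr' fun _ => ?_)
  constructor
  · intro h3 hj
    rw [← h1 j hj.le]
    exact h3 hj
  · intro h3 hj
    rw [h1 j hj.le]
    exact h3 hj

/-- **Strong Markov property** at the entrance -/
theorem hit_step (hQ : 0 < Q) (hS : tlv S.e0 ∉ S.D) (hz : Good S.z) {E : Set Cfg} {c : ℝ}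
    (h : ∀ ω, Cs S ω → ω ∈ HitE S l x ρ n m → c ≤ PQ Q (S.rv (RC S x ρ n r ω) ω) E) :
    c * PQ Q S (HitE S l x ρ n m) ≤ PQ Q S E := by
  have hY : PastS S (RC S x ρ n r) ((HitE S l x ρ n m).indicator 1) := by
    intro ω ω' h1 h2 h3
    have h4 := hitE_past (l := l) (m := m) hS h1 h2 h3
    by_cases h5 : ω ∈ HitE S l x ρ n m
    · rw [Set.indicator_of_mem h5, Set.indicator_of_mem (h4.2 h5)]
      rfl
    · rw [Set.indicator_of_notMem h5, Set.indicator_of_notMem fun h => h5 (h4.1 h)]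
  have h1 := EQ_stop hQ hz (stop_RC hS x ρ n r) (RC_cf x ρ n r) hY (E.indicator 1)
  have h2 : EQ Q S (fun ω => (HitE S l x ρ n m).indicator 1 ω * E.indicator 1 ω) ≤ PQ Q S E := by
    refine EQ_mono hQ fun ω _ => ?_
    have := ind_le_one (HitE S l x ρ n m) ω
    have := ind_nonneg E ω
    nlinarith
  have h3 : c * PQ Q S (HitE S l x ρ n m) ≤ EQ Q S (fun ω => (HitE S l x ρ n m).indicator 1 ω *
      EQ Q (S.rv (RC S x ρ n r ω) ω) (E.indicator 1)) := by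
    show c * EQ Q S ((HitE S l x ρ n m).indicator 1) ≤ _
    rw [← EQ_mul]
    refine EQ_mono hQ fun ω hω => ?_
    by_cases h5 : ω ∈ HitE S l x ρ n m
    · rw [Set.indicator_of_mem h5]
      have := h ω hω h5
      simp only [Pi.one_apply, mul_one, one_mul]
      exact this
    · rw [Set.indicator_of_notMem h5]
      simp
  exact h3.trans (h1.symm.le.trans h2)

theorem zone_of (hS : TC S l x ρ) (hn : 1 ≤ n) (hnl : n ≤ l) (hρ : 4 * l ≤ ρ) : Zone S x ρ n :=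
  { toOk := hS.toOk
    gq := hS.gq
    flat := hS.flat'
    fr := fun v hv => hS.fresh v ⟨hv.1, hv.2.1, hv.2.2.1, by have := hv.2.2.2; omega⟩
    po := hS.po
    l1 := hn
    lw := by omega }

/-- the entrance -/
theorem hitE_X1 (hS : TC S l x ρ) (hn : 1 ≤ n) (hρ : 4 * n ≤ ρ) (hm : m ≤ ρ) (hω : Cs S ω)
    (h : ω ∈ HitE S l x ρ n m) : ∃ y, |y - x| ≤ m ∧
      S.X1 (Lo x ρ (4 * n)) ω = Sum.inr (y, 4 * n - 1) ∧
      hdv (S.X1 (Lo x ρ (4 * n)) ω) = (y, 4 * n - 1) := by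
  obtain ⟨⟨y, hy, hyx⟩, -⟩ := h
  have h1 : S.X1 (Lo x ρ (4 * n)) ω = Sum.inr (y, 4 * n - 1) := by
    show H318.st S.e0 (S.cf ω) (hit S.D S.e0 (Lo x ρ (4 * n)) (S.cf ω)) = _
    rw [hω.cf]
    exact hy
  refine ⟨y, hyx, h1, ?_⟩
  rw [h1]
  rw [abs_le] at hyx
  by_cases hev : Even (y + (4 * n - 1))
  · simp [hdv, hev]
  · exfalso
    have h2 := H318.Bs.hit_spec hS.st (Lo x ρ (4 * n)) ω
    rw [hy] at h2
    simp only [hdv, hev, if_false] at h2
    rcases h2 with h2 | h2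
    · have h3 := h2.2.2.2
      dsimp only at h3
      omega
    · exact h2 (hS.flat'.mem _ ⟨by dsimp only; omega, by dsimp only; omega, by dsimp only; omega,
        by dsimp only; omega⟩)

/-- **The new state** -/
theorem new_tc (hS : TC S l x ρ) (hn : 1 ≤ n) (hnl : n ≤ l) (hρ : 4 * l ≤ ρ) (h4 : 4 * n ≤ r)
    (hm : m + r < ρ) (hω : Cs S ω) (h : ω ∈ HitE S l x ρ n m) :
    ∃ y, |y - x| ≤ m ∧ hdv (S.X1 (Lo x ρ (4 * n)) ω) = (y, 4 * n - 1) ∧
      TC (S.rv (RC S x ρ n r ω) ω) n y r := by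
  obtain ⟨y, h1, h2, h3⟩ := hitE_X1 hS hn (by omega) (by omega) hω h
  have hZ := zone_of hS hn hnl hρ
  have h5 := abs_le.1 h1
  have h6 := hZ.tc (ω := ω) h4 (by
    rw [h3]
    exact ⟨by dsimp only; omega, by dsimp only; omega, by dsimp only; omega, by dsimp only; omega⟩)
    (by rw [h3]; dsimp only; omega)
  rw [h3] at h6
  exact ⟨y, h1, h3, h6⟩

/-! ### comparison with the reference box -/

variable {K K0 : ℤ}

/-- the traces on the box are equal -/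
theorem bq_trace {R : ℤ} (hR0 : R ≤ K0) (hRl : R ≤ 4 * l) (hRρ : R ≤ ρ) (hS : TC S l x ρ) :
    ∀ v ∈ Bq (x, 0) R, (v ∈ hbF x K0 ↔ 0 ≤ v.2) ∧ (v ∈ S.F ↔ 0 ≤ v.2) ∧
      (v.2 < 0 → S.z v = false) := by
  intro v hv
  rw [H167.Q.mem_Bq] at hv
  dsimp only at hv
  refine ⟨?_, ⟨fun h => ?_, fun h => ?_⟩, fun h => ?_⟩
  · rw [mem_hbF]
    simp only [H318.HB, Set.mem_ofPred_eq]
    omega
  · by_contra hc
    exact (hS.gq.row v (by omega) (by omega) (by omega) (by omega)).1 h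
  · exact hS.fresh v ⟨by omega, by omega, h, by omega⟩
  · exact (hS.gq.row v (by omega) (by omega) (by omega) (by omega)).2

/-- **Comparison with the reference box**, both directions -/
theorem ref_two (hQ : 1 ≤ Q) {L : ℤ} (hL : H519.Rat Q L) (hr : 1 ≤ r) (hK0 : L * (L * (r + 1)) ≤ K0)
    (hl : K0 ≤ 4 * l) (hρ : K0 ≤ ρ) (hS : TC S l x ρ) {F : Cfg → ℝ} (hF0 : ∀ ω, 0 ≤ F ω)
    (hF : Loc (hbF x r) F) : Ex Q (hbF x K0) eta0 F ≤ 8 * Ex Q S.F S.z F ∧
      Ex Q S.F S.z F ≤ 8 * Ex Q (hbF x K0) eta0 F := by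
  have hL2 := hL.1
  set R := L * (L * (r + 1)) with hR
  have k1 : r + 1 ≤ L * (r + 1) := by nlinarith
  have k2 : L * (r + 1) ≤ R := by
    rw [hR]
    nlinarith
  have hbq := bq_trace (x := x) hK0 (by omega) (by omega) hS
  have hV : hbF x r ⊆ Bq (x, 0) (r + 1) := by
    intro v hv
    rw [mem_hbF] at hv
    simp only [H318.HB, Set.mem_ofPred_eq] at hv
    rw [H167.Q.mem_Bq]
    dsimp only
    omega
  have hDD : hbF x K0 ∩ Bq (x, 0) R = S.F ∩ Bq (x, 0) R := by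
    ext v
    rw [Finset.mem_inter, Finset.mem_inter]
    constructor
    · rintro ⟨h1, h2⟩
      exact ⟨(hbq v h2).2.1.2 ((hbq v h2).1.1 h1), h2⟩
    · rintro ⟨h1, h2⟩
      exact ⟨(hbq v h2).1.2 ((hbq v h2).2.1.1 h1), h2⟩
  have hV1 : hbF x r ⊆ hbF x K0 := by
    intro v hv
    rw [mem_hbF] at hv ⊢
    simp only [H318.HB, Set.mem_ofPred_eq] at hv ⊢
    omega
  have hV2 : hbF x r ⊆ S.F := by
    intro v hv
    have h1 : v ∈ Bq (x, 0) R := H167.Q.bq_mono (by omega) (hV hv)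
    refine (hbq v h1).2.1.2 ?_
    rw [mem_hbF] at hv
    exact hv.2.2.1
  have f1 : H192.Q.Fr (x, 0) R (hbF x K0) eta0 := fun v _ _ => rfl
  have f2 : H192.Q.Fr (x, 0) R S.F S.z := fun v hv hvD => by
    have h1 := hbq v hv
    exact h1.2.2 (by
      by_contra hc
      exact hvD (h1.2.1.2 (by omega)))
  exact ⟨H192.Q.rat_bdy_dom (x := (x, 0)) (r := r + 1) (R := R) hQ hL (by omega) le_rfl hDD hV1 hV hF0
    hF f_good.2.1 hS.gq.good f1 f2, H192.Q.rat_bdy_dom (x := (x, 0)) (r := r + 1) (R := R) hQ hL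
      (by omega) le_rfl hDD.symm hV2 hV hF0 hF hS.gq.good f_good.2.1 f2 f1⟩

end Vale.Agent.P167.H704.Q
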