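import Vale.Agent.P167.H704.Q.MinA

/-!
# P167, general `q`, block Q-NSYM, minorization: probability of the crossings of the corridor
-/

namespace Vale.Agent.P167.H704.Q

open Finset Vale.Agent.P145.FB Vale.Agent.P153 Vale.Agent.P153.Topo Vale.Agent.P167
  Vale.Agent.P167.H632 Vale.Agent.P167.H871 Vale.Agent.P167.H704 Vale.Agent.P167.FK
  Vale.Agent.P167.FKA
open Vale.Agent.P167.H318 (St Pt0 Cl0 FlatAt st)
open Vale.Agent.P167.H318.UQ (Rc mem_Rc)
open Relation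

/-! ### dependence -/

theorem dep_ind {V T : Finset Pt} {E : Set Cfg} (h : Dep V E) (hd : Disjoint V T) :
    Ind T (E.indicator (1 : Cfg → ℝ)) := by
  intro ω ω' hω
  have h1 : ω ∈ E ↔ ω' ∈ E := ⟨h ω ω' fun v hv => hω v (Finset.disjoint_left.1 hd hv),
    h ω' ω fun v hv => (hω v (Finset.disjoint_left.1 hd hv)).symm⟩
  by_cases h2 : ω ∈ E
  · rw [Set.indicator_of_mem h2, Set.indicator_of_mem (h1.1 h2)]
    rfl
  · rw [Set.indicator_of_notMem h2, Set.indicator_of_notMem fun h => h2 (h1.2 h)]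

theorem dep_loc {V : Finset Pt} {E : Set Cfg} (h : Dep V E) :
    Loc V (E.indicator (1 : Cfg → ℝ)) := by
  intro ω ω' hω
  have h1 : ω ∈ E ↔ ω' ∈ E := ⟨h ω ω' hω, h ω' ω fun v hv => (hω v hv).symm⟩
  by_cases h2 : ω ∈ E
  · rw [Set.indicator_of_mem h2, Set.indicator_of_mem (h1.1 h2)]
    rfl
  · rw [Set.indicator_of_notMem h2, Set.indicator_of_notMem fun h => h2 (h1.2 h)]

theorem dep_inter {V : Finset Pt} {E E' : Set Cfg} (h : Dep V E) (h' : Dep V E') :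
    Dep V (E ∩ E') := fun ω ω' hω h1 => ⟨h ω ω' hω h1.1, h' ω ω' hω h1.2⟩

variable {b : Bool} {S : St} {x l N n : ℤ} {D : Finset Pt} {U : Pt → ℤ}

/-- the region of the colour `b` between `I` and the leg -/
noncomputable def ER (b : Bool) (x l N : ℤ) : Finset Pt :=
  if b then Rc (x + N + 1) (x + 4 * l - 1) 0 (4 * l - 1)
  else Rc (x - 4 * l + 1) (x - N - 1) 0 (4 * l - 1)

theorem mem_ER {v : Pt} : v ∈ ER b x l N ↔
    ((b = true ∧ x + N + 1 ≤ v.1 ∧ v.1 ≤ x + 4 * l - 1) ∨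
      (b = false ∧ x - 4 * l + 1 ≤ v.1 ∧ v.1 ≤ x - N - 1)) ∧ 0 ≤ v.2 ∧ v.2 ≤ 4 * l - 1 := by
  cases b
  · rw [ER, if_neg (by simp), mem_Rc]
    simp
  · rw [ER, if_pos rfl, mem_Rc]
    simp

theorem dep_LK (b : Bool) (S : St) (D : Finset Pt) (x l y : ℤ) : Dep D (LK b S D x l y) := by
  rintro o o' ho ⟨a, c, h1, h2, h3, h4, i, hi, h5⟩
  have hs : cs b o ∩ ↑D ⊆ cs b o' ∩ ↑D := fun v hv => ⟨by
    show o' v = b
    rw [← ho v hv.2]
    exact hv.1, hv.2⟩
  exact ⟨a, c, h1, h2, h3, h4.mono hs subset_rfl, i, hi, h5.mono hs subset_rfl⟩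

theorem inc_BE (b : Bool) (S : St) (D : Finset Pt) (x l N n : ℤ) : IncC b (BE b S D x l N n) :=
  (inc_Vc _ _ _ _ _).inter ((inc_Hc _ _ _ _ _).inter ((inc_Vc _ _ _ _ _).inter
    ((inc_Hc _ _ _ _ _).inter (inc_LK _ _ _ _ _ _))))

theorem dep_BE (hn : 1 ≤ n) (hN : 16 * n ≤ N) (hl : 4 * N ≤ l) :
    Dep (ER b x l N ∪ D) (BE b S D x l N n) := by
  have hT := cols b x l N n
  refine dep_inter ((dep_Vc _ _ _ _ _).mono fun v hv => ?_) (dep_inter ((dep_Hc _ _ _ _ _).mono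
    fun v hv => ?_) (dep_inter ((dep_Vc _ _ _ _ _).mono fun v hv => ?_) (dep_inter
      ((dep_Hc _ _ _ _ _).mono fun v hv => ?_) ((dep_LK _ _ _ _ _ _).mono
        Finset.subset_union_right))))
  all_goals
    rw [mem_rq] at hv
    refine Finset.mem_union_left _ (mem_ER.2 ⟨?_, by omega, by omega⟩)
    rcases hT with ⟨h0, h1⟩ | ⟨h0, h1⟩
    · exact Or.inl ⟨h0, by omega, by omega⟩
    · exact Or.inr ⟨h0, by omega, by omega⟩

/-- the domain of the crossings of the colour `b` -/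
noncomputable def TR (b : Bool) (S : St) (U : Pt → ℤ) (x l N : ℤ) : Finset Pt :=
  ER b x l N ∪ CU b S (TT x l) U

variable {v w H : ℤ}

/-- the value of the potential in the domain -/
theorem val_TR (hB : H318.TB S v w (4 * l) H x) (hl : 1 ≤ l) (hN : 0 ≤ N)
    (hx1 : v - w ≤ x - 8 * l) (hx2 : x + 8 * l ≤ v + w) (hU : Pt0 S x (4 * l) U) {q : Pt}
    (hq : q ∈ TR b S U x l N) : q ∈ S.F ∧ U q = U (bk b S.tip) := by
  rcases Finset.mem_union.1 hq with h | h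
  · rw [mem_ER] at h
    obtain ⟨h1, h2, h3⟩ := h
    constructor
    · refine hB.fresh _ ⟨?_, ?_, h2, ?_⟩
      · rcases h1 with ⟨-, h4, h5⟩ | ⟨-, h4, h5⟩ <;> omega
      · rcases h1 with ⟨-, h4, h5⟩ | ⟨-, h4, h5⟩ <;> omega
      · omega
    · rcases h1 with ⟨rfl, h4, h5⟩ | ⟨rfl, h4, h5⟩
      · exact H318.east hB hl hx1 hx2 hU (by omega) (by omega) h2 (by omega)
      · exact H318.west hB hl hx1 hx2 hU (by omega) (by omega) h2 (by omega)
  · exact (mem_CU.1 h).2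

theorem disj_TR (hB : H318.TB S v w (4 * l) H x) (hl : 1 ≤ l) (hN : 0 ≤ N)
    (hx1 : v - w ≤ x - 8 * l) (hx2 : x + 8 * l ≤ v + w) (hU : Pt0 S x (4 * l) U) (b : Bool) :
    Disjoint (TR b S U x l N) (TR (!b) S U x l N) := by
  rw [Finset.disjoint_left]
  intro q h1 h2
  have e1 := (val_TR hB hl hN hx1 hx2 hU h1).2
  have e2 := (val_TR hB hl hN hx1 hx2 hU h2).2
  have h7 : U (ls S.tip) = U (rs S.tip) + 1 := tb_hp hB hl hx1 hx2 hU S.m le_rfl
  cases b
  · have e3 : U q = U (rs S.tip) := e1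
    have e4 : U q = U (ls S.tip) := e2
    omega
  · have e3 : U q = U (ls S.tip) := e1
    have e4 : U q = U (rs S.tip) := e2
    omega

/-- **Probability of the crossings of the corridor**, whatever happens outside of the domain -/
theorem be_ge {Q : ℝ} (hQ : 1 ≤ Q) (h : RSW Q) (K1 : ℕ) : ∃ (c : ℝ) (n0 : ℤ), 0 < c ∧ c ≤ 1 ∧
    1 ≤ n0 ∧ ∀ (b : Bool) (S : St) (v w l H x N n : ℤ) (U : Pt → ℤ) (ω : Cfg), n0 ≤ n →
      16 * n ≤ N → 4 * N ≤ l → l ≤ K1 * n → 8 * l ≤ H → H318.TB S v w (4 * l) H x →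
      v - w ≤ x - 8 * l → x + 8 * l ≤ v + w → Pt0 S x (4 * l) U →
      Good ω → (∀ v, v ∉ S.F → ω v = S.z v) →
      c ≤ Pr Q (TR b S U x l N) ω (BE b S (CU b S (TT x l) U) x l N n) := by
  have hQ0 : 0 < Q := by linarith
  obtain ⟨c1, l0, hc1, hc11, hl0, hL⟩ := lk_ge hQ h
  obtain ⟨c2, s0, hc2, hc21, hs0, hR⟩ := rs_fk hQ h (3 * K1)
  refine ⟨(c1 * c2) ^ 5, max l0 s0, by positivity, pow_le_one₀ (by positivity) (by nlinarith),
    by omega, fun b S v w l H x N n U ω hn hN hl hK hH hB hx1 hx2 hU hg hω => ?_⟩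
  have hn1 : 1 ≤ n := by omega
  have hl1 : 1 ≤ l := by omega
  have k1 : c1 * c2 ≤ c1 := by nlinarith
  have k2 : c1 * c2 ≤ c2 := by nlinarith
  have hT := cols b x l N n
  have hK3 : 3 * l ≤ ((3 * K1 : ℕ) : ℤ) * n := by
    push_cast
    linarith
  have hK4 : ((3 * K1 : ℕ) : ℤ) * n ≤ ((3 * K1 : ℕ) : ℤ) * l :=
    mul_le_mul_of_nonneg_left (by omega) (by positivity)
  refine fkg5Q hQ hg (by positivity) (inc_Vc _ _ _ _ _) (inc_Hc _ _ _ _ _) (inc_Vc _ _ _ _ _)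
    (inc_Hc _ _ _ _ _) (inc_LK _ _ _ _ _ _) (k2.trans ?_) (k2.trans ?_) (k2.trans ?_)
    (k2.trans ?_) (k1.trans ?_)
  · refine (hR b _ _ _ _ _ _ hg (by omega) (by omega)).2 (by omega) ?_
      fun q a1 a2 a3 a4 a5 => absurd ?_ a5
    · have e1 : pT b x N n + n - pT b x N n = n := by ring
      rw [e1]
      omega
    · refine Finset.mem_union_left _ (mem_ER.2 ⟨?_, by omega, by omega⟩)
      rcases hT with ⟨h0, h1⟩ | ⟨h0, h1⟩
      · exact Or.inl ⟨h0, by omega, by omega⟩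
      · exact Or.inr ⟨h0, by omega, by omega⟩
  · refine (hR b _ _ _ _ _ _ hg (by omega) (by omega)).1 (by omega) ?_
      fun q a1 a2 a3 a4 a5 => absurd ?_ a5
    · have e1 : 2 * n - n = n := by ring
      rw [e1]
      omega
    · refine Finset.mem_union_left _ (mem_ER.2 ⟨?_, by omega, by omega⟩)
      rcases hT with ⟨h0, h1⟩ | ⟨h0, h1⟩
      · exact Or.inl ⟨h0, by omega, by omega⟩
      · exact Or.inr ⟨h0, by omega, by omega⟩
  · refine (hR b _ _ _ _ _ _ hg (by omega) (by omega)).2 (by omega) ?_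
      fun q a1 a2 a3 a4 a5 => absurd ?_ a5
    · have e1 : lg b x l + n - lg b x l = n := by ring
      rw [e1]
      omega
    · refine Finset.mem_union_left _ (mem_ER.2 ⟨?_, by omega, by omega⟩)
      rcases hT with ⟨h0, h1⟩ | ⟨h0, h1⟩
      · exact Or.inl ⟨h0, by omega, by omega⟩
      · exact Or.inr ⟨h0, by omega, by omega⟩
  · refine (hR b _ _ _ _ _ _ hg (by omega) (by omega)).1 (by omega) ?_
      fun q a1 a2 a3 a4 a5 => absurd ?_ a5
    · have e1 : 2 * l - l = l := by ring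
      rw [e1]
      omega
    · refine Finset.mem_union_left _ (mem_ER.2 ⟨?_, by omega, by omega⟩)
      rcases hT with ⟨h0, h1⟩ | ⟨h0, h1⟩
      · exact Or.inl ⟨h0, by omega, by omega⟩
      · exact Or.inr ⟨h0, by omega, by omega⟩
  · have h1 := ex_ge (Q := Q) (D := TR b S U x l N) (η := ω) hQ hg (A := CU b S (TT x l) U)
      Finset.subset_union_right (c := c1) (E := LK b S (CU b S (TT x l) U) x l l)
      (G := fun _ => 1) (fun _ _ _ => rfl) (fun _ => zero_le_one) fun ω' hg' hω' =>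
        hL b S v w l H x l U ω' (by omega) hH hB hx1 hx2 hU hg' (fun q hq => by
          rw [hω' q fun h => hq (val_TR hB hl1 (by omega) hx1 hx2 hU h).1]
          exact hω q hq) le_rfl (by omega)
    rw [Ex_const hQ0, mul_one] at h1
    simp only [one_mul] at h1
    exact h1

end Vale.Agent.P167.H704.Q
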